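import Vale.Agent.P352.BW.Spec2
import Vale.Agent.P352.H755.R7h
import Vale.Agent.P132.Bd8.B6

/-!
# P352 BW, second stage (helper234): the modular automorphisms of a wedge algebra are the boosts,
# the vacuum is separating for it, and double commutants
-/

set_option linter.all false

noncomputable section

open MeasureTheory Filter Topology
open scoped ComplexConjugate InnerProductSpace BoundedContinuousFunction

namespace Vale.Agent.P352.BW

open Vale.Agent.P132 (ModData expB jconj exists_modData)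
open UniformSpace (Completion)
open GF H246 H496 H755 H15

namespace H234

section geo

theorem mdc (x y : V) : GF.mdot x y = GF.mdot y x := by
  unfold GF.mdot
  exact Finset.sum_congr rfl fun m _ => by ring

theorem mem_wdg (a b z : V) : z ∈ Wdg a b 0 ↔ GF.mdot a z < 0 ∧ 0 < GF.mdot b z := by
  simp only [Wdg, Set.mem_setOf_eq, sub_zero]

theorem cont_mdot (a : V) : Continuous fun z : V => GF.mdot a z := by
  unfold GF.mdot
  fun_prop

theorem isOpen_wdg (a b : V) : IsOpen (Wdg a b 0) := by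
  have e : Wdg a b 0 = {z | GF.mdot a z < 0} ∩ {z | 0 < GF.mdot b z} := by
    ext z; exact mem_wdg a b z
  rw [e]
  exact (isOpen_lt (cont_mdot a) continuous_const).inter
    (isOpen_lt continuous_const (cont_mdot b))

theorem mdot_comb (c a b z : V) (α β : ℝ) : GF.mdot c (z + α • a + β • b) =
    GF.mdot c z + α * GF.mdot c a + β * GF.mdot c b := by
  simp only [GF.mdot, Pi.add_apply, Pi.smul_apply, smul_eq_mul, Fin.sum_univ_four]
  ring

variable {a b : V} (ha : IsNull a) (hb : IsNull b) (hab : GF.mdot a b = 1)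

include ha hb hab

theorem wdg_ne : (Wdg a b 0).Nonempty := by
  refine ⟨0 + (1 : ℝ) • a + (-1 : ℝ) • b, (mem_wdg a b _).2 ⟨?_, ?_⟩⟩
  · rw [mdot_comb, ha.1, hab]; simp [GF.mdot]
  · rw [mdot_comb, hb.1, mdc b a, hab]; simp [GF.mdot]

/-- the boost that belongs to the modular parameter `t` -/
def bo (a b : V) (t : ℝ) : Ix → V :=
  bst a b (Real.exp (-(2 * Real.pi * t)) - 1) (Real.exp (2 * Real.pi * t) - 1)

omit ha hb hab in
theorem sim_bo (t : ℝ) (x : V) : sim 1 (bo a b t) 0 x =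
    x + ((Real.exp (-(2 * Real.pi * t)) - 1) * GF.mdot b x) • a +
      ((Real.exp (2 * Real.pi * t) - 1) * GF.mdot a x) • b := sim_bst a b _ _ x

theorem isLor_bo (t : ℝ) : IsLor (bo a b t) := by
  refine isLor_bst ha hb hab ?_ ?_
  · rw [add_sub_cancel]; exact Real.exp_pos _
  · rw [add_sub_cancel, add_sub_cancel, ← Real.exp_add, neg_add_cancel, Real.exp_zero]

theorem bo_a (t : ℝ) (x : V) :
    GF.mdot a (sim 1 (bo a b t) 0 x) = Real.exp (2 * Real.pi * t) * GF.mdot a x := by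
  rw [sim_bo, mdot_comb, ha.1, hab]; ring

theorem bo_b (t : ℝ) (x : V) :
    GF.mdot b (sim 1 (bo a b t) 0 x) = Real.exp (-(2 * Real.pi * t)) * GF.mdot b x := by
  rw [sim_bo, mdot_comb, hb.1, mdc b a, hab]; ring

theorem bo_wdg (t : ℝ) : sim 1 (bo a b t) 0 '' Wdg a b 0 ⊆ Wdg a b 0 := by
  rintro _ ⟨z, hz, rfl⟩
  rw [mem_wdg] at hz
  rw [mem_wdg, bo_a ha hb hab, bo_b ha hb hab]
  exact ⟨mul_neg_of_pos_of_neg (Real.exp_pos _) hz.1, mul_pos (Real.exp_pos _) hz.2⟩

theorem bo_wdg' (t : ℝ) : sim 1 (bo a b t) 0 '' Wdg b a 0 ⊆ Wdg b a 0 := by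
  rintro _ ⟨z, hz, rfl⟩
  rw [mem_wdg] at hz
  rw [mem_wdg, bo_a ha hb hab, bo_b ha hb hab]
  exact ⟨mul_neg_of_pos_of_neg (Real.exp_pos _) hz.1, mul_pos (Real.exp_pos _) hz.2⟩

omit ha hb hab in
theorem cont_bo (t : ℝ) : Continuous (sim 1 (bo a b t) 0) := by
  unfold GF.sim
  fun_prop

end geo

section net

variable {D : Type*} [NormedAddCommGroup D] [InnerProductSpace ℂ D] {Q : Theory D}
  {A : (V → V) → D → D} {𝒜 : Set V → VonNeumannAlgebra (Completion D)}

theorem norm_om (Q : Theory D) : ‖om Q‖ = 1 := by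
  rw [om, Completion.norm_coe, Q.norm_vac]

variable (N : LNet Q A 𝒜) (h1 : W1Stmt Q A 𝒜) {a b : V} (ha : IsNull a) (hb : IsNull b)
  (hab : GF.mdot a b = 1)

include N ha hb hab

/-- the modular automorphisms of a wedge algebra are the boosts -/
theorem sg_mem_img (E : ModData (𝒜 (Wdg a b 0)) (om Q)) (t : ℝ) {O : Set V}
    {X : Completion D →L[ℂ] Completion D} (hX : X ∈ 𝒜 O) :
    E.sg t X ∈ 𝒜 (sim 1 (bo a b t) 0 '' O) := by
  have hL := isLor_bo ha hb hab t
  obtain ⟨Y, hY, h⟩ := N.cov 1 (bo a b t) 0 O X hX one_pos hL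
  have hbw : ∀ z, E.U t z = Ue Q 1 (bo a b t) 0 z := fun z =>
    N.bw a b t (bo a b t) E z ha hb hab hL (sim_bo t)
  have e : E.sg t X = Y := by
    ext z
    have h2 : z = E.U t (E.U (-t) z) := (E.U_apply_neg t z).symm
    rw [E.sg_apply]
    conv_rhs => rw [h2, hbw, h, ← hbw]
  rw [e]
  exact hY

include h1

/-- the vacuum is separating for the wedge algebra -/
theorem sep_wdg (X : Completion D →L[ℂ] Completion D) (hX : X ∈ 𝒜 (Wdg a b 0))
    (h0 : X (om Q) = 0) : X = 0 := by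
  have hba : GF.mdot b a = 1 := by rw [mdc]; exact hab
  have hd := h1 N _ (isOpen_wdg b a) (wdg_ne hb ha hba)
  ext z
  have hcl : IsClosed {z : Completion D | X z = 0} := isClosed_eq X.continuous continuous_const
  refine closure_minimal ?_ hcl (hd z)
  rintro _ ⟨Y, hY, rfl⟩
  have h2 := N.loc a b ha hb hab Y hY
  rw [VonNeumannAlgebra.mem_commutant_iff] at h2
  have h3 := congrArg (fun T : Completion D →L[ℂ] Completion D => T (om Q)) (h2 X hX)
  have h4 : X (Y (om Q)) = Y (X (om Q)) := h3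
  change X (Y (om Q)) = 0
  rw [h4, h0, map_zero]

theorem mod_wdg : Nonempty (ModData (𝒜 (Wdg a b 0)) (om Q)) :=
  exists_modData _ _ (norm_om Q) (h1 N _ (isOpen_wdg a b) (wdg_ne ha hb hab))
    (sep_wdg N h1 ha hb hab)

end net

end H234

namespace H234

section vn

variable {H : Type*} [NormedAddCommGroup H] [InnerProductSpace ℂ H] [CompleteSpace H]

/-- the commutant of a set of operators that is closed under adjoints -/
def comm (S : Set (H →L[ℂ] H)) (hS : ∀ X ∈ S, star X ∈ S) : VonNeumannAlgebra H where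
  toStarSubalgebra := StarSubalgebra.centralizer ℂ S
  centralizer_centralizer' := by
    have e : (StarSubalgebra.centralizer ℂ S : Set (H →L[ℂ] H)) = Set.centralizer S := by
      ext X
      rw [SetLike.mem_coe, StarSubalgebra.mem_centralizer_iff, Set.mem_centralizer_iff]
      refine ⟨fun h g hg => (h g hg).1, fun h g hg => ⟨h g hg, h _ (hS g hg)⟩⟩
    change Set.centralizer (Set.centralizer ((StarSubalgebra.centralizer ℂ S :
      StarSubalgebra ℂ (H →L[ℂ] H)) : Set (H →L[ℂ] H))) =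
      ((StarSubalgebra.centralizer ℂ S : StarSubalgebra ℂ (H →L[ℂ] H)) : Set (H →L[ℂ] H))
    rw [e, Set.centralizer_centralizer_centralizer]

theorem mem_comm {S : Set (H →L[ℂ] H)} {hS : ∀ X ∈ S, star X ∈ S} {X : H →L[ℂ] H} :
    X ∈ comm S hS ↔ ∀ Y ∈ S, Y * X = X * Y := by
  change X ∈ StarSubalgebra.centralizer ℂ S ↔ _
  rw [StarSubalgebra.mem_centralizer_iff]
  exact ⟨fun h g hg => (h g hg).1, fun h g hg => ⟨h g hg, h _ (hS g hg)⟩⟩

theorem mem_cc {M : VonNeumannAlgebra H} {X : H →L[ℂ] H}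
    (h : ∀ Y ∈ M.commutant, Y * X = X * Y) : X ∈ M := by
  rw [← M.commutant_commutant, VonNeumannAlgebra.mem_commutant_iff]
  exact h

variable {M : VonNeumannAlgebra H} {ξ : H} (E : ModData M ξ)

theorem sg_comm (t : ℝ) (X Y : H →L[ℂ] H) (h : E.sg (-t) Y * X = X * E.sg (-t) Y) :
    Y * E.sg t X = E.sg t X * Y := by
  have h1 := congrArg (fun T : H →L[ℂ] H => E.U t * T * E.U (-t)) h
  have h2 : ∀ T : H →L[ℂ] H, E.U t * (E.sg (-t) T) * E.U (-t) = T := by
    intro T
    change E.U t * (E.U (-t) * T * E.U (- -t)) * E.U (-t) = T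
    rw [neg_neg, mul_assoc, mul_assoc, mul_assoc, E.U_mul_U_neg, mul_one, ← mul_assoc,
      E.U_mul_U_neg, one_mul]
  have h3 : E.U t * (E.sg (-t) Y * X) * E.U (-t) = Y * E.sg t X := by
    conv_rhs => rw [← h2 Y]
    change _ = E.U t * (E.sg (-t) Y) * E.U (-t) * (E.U t * X * E.U (-t))
    simp only [mul_assoc]
    rw [← mul_assoc (E.U (-t)) (E.U t), E.U_neg_mul_U, one_mul]
  have h4 : E.U t * (X * E.sg (-t) Y) * E.U (-t) = E.sg t X * Y := by
    conv_rhs => rw [← h2 Y]
    change _ = (E.U t * X * E.U (-t)) * (E.U t * (E.sg (-t) Y) * E.U (-t))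
    simp only [mul_assoc]
    rw [← mul_assoc (E.U (-t)) (E.U t), E.U_neg_mul_U, one_mul]
  rw [← h3, ← h4]
  exact h1

end vn

end H234

end Vale.Agent.P352.BW

end
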