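import Vale.Agent.P132.Bd8.B2

/-!
P352, project BW (helper234): uniqueness of the modular data `ModData M ξ` of a von Neumann algebra
with a cyclic and separating vector (uniqueness in the theorem of Tomita and Takesaki).
-/

set_option linter.all false

open Filter Topology
open scoped ComplexConjugate InnerProductSpace BoundedContinuousFunction

namespace Vale.Agent.P352.BW.H234

open Vale.Agent.P132 Vale.Agent.P132.ModData

universe u

variable {H : Type u} [NormedAddCommGroup H] [InnerProductSpace ℂ H] [CompleteSpace H]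
  {M : VonNeumannAlgebra H} {ξ : H}

/-- `h ↦ 1 / (1 + e^h)` -/
noncomputable def rr : ℝ →ᵇ ℂ :=
  BoundedContinuousFunction.ofNormedAddCommGroup
    (fun h : ℝ => ((1 / (1 + Real.exp h) : ℝ) : ℂ))
    (by
      have : Continuous fun h : ℝ => 1 / (1 + Real.exp h) :=
        continuous_const.div (by fun_prop) (fun h => by positivity)
      fun_prop) 1
    (fun h => by
      have h1 : 0 < Real.exp h := Real.exp_pos h
      rw [Complex.norm_real, Real.norm_of_nonneg (by positivity), div_le_iff₀ (by positivity)]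
      linarith)

theorem rr_apply (h : ℝ) : rr h = ((1 / (1 + Real.exp h) : ℝ) : ℂ) := rfl

/-- `h ↦ e^(h/2) / (1 + e^h)` -/
noncomputable def ss : ℝ →ᵇ ℂ :=
  BoundedContinuousFunction.ofNormedAddCommGroup
    (fun h : ℝ => ((Real.exp (h / 2) / (1 + Real.exp h) : ℝ) : ℂ))
    (by
      have : Continuous fun h : ℝ => Real.exp (h / 2) / (1 + Real.exp h) :=
        (by fun_prop : Continuous fun h : ℝ => Real.exp (h / 2)).div (by fun_prop)
          (fun h => by positivity)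
      fun_prop) 1
    (fun h => by
      have h1 : 0 < Real.exp h := Real.exp_pos h
      have h2 : Real.exp h = Real.exp (h / 2) ^ 2 := by
        rw [← Real.exp_nat_mul]; ring_nf
      rw [Complex.norm_real, Real.norm_of_nonneg (by positivity), div_le_iff₀ (by positivity)]
      nlinarith [sq_nonneg (Real.exp (h / 2) - 1), Real.exp_pos (h / 2)])

theorem ss_apply (h : ℝ) : ss h = ((Real.exp (h / 2) / (1 + Real.exp h) : ℝ) : ℂ) := rfl

theorem star_ss : star ss = ss := by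
  ext h
  change star (ss h) = ss h
  rw [ss_apply, Complex.star_def, Complex.conj_ofReal]

theorem star_rr : star rr = rr := by
  ext h
  change star (rr h) = rr h
  rw [rr_apply, Complex.star_def, Complex.conj_ofReal]

variable (D : ModData M ξ)


/-- smooth cutoffs -/
theorem exists_chi : ∃ χ : ℕ → ℝ →ᵇ ℂ, (∀ n, ContDiff ℝ (⊤ : ℕ∞) (χ n)) ∧
    (∀ n, HasCompactSupport (χ n)) ∧ (∀ n, ‖χ n‖ ≤ 1) ∧ (∀ n x, conj (χ n x) = χ n x) ∧
    ∀ x, Tendsto (fun n => χ n x) atTop (𝓝 1) := by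
  choose χ h1 h2 h3 h4 h5 using fun n : ℕ => gd_cutoff (Set.Icc (-(n : ℝ)) n) isCompact_Icc
  refine ⟨χ, h1, h2, h3, h5, fun x => ?_⟩
  apply tendsto_const_nhds.congr'
  filter_upwards [eventually_ge_atTop ⌈|x|⌉₊] with n hn
  have h6 : |x| ≤ n := (Nat.le_ceil _).trans (by exact_mod_cast hn)
  exact (h4 n x ⟨(abs_le.1 h6).1, (abs_le.1 h6).2⟩).symm

theorem tendsto_chi {χ : ℕ → ℝ →ᵇ ℂ} (h1 : ∀ n, ‖χ n‖ ≤ 1)
    (h2 : ∀ x, Tendsto (fun n => χ n x) atTop (𝓝 1)) (v : H) :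
    Tendsto (fun n => D.Th (χ n) v) atTop (𝓝 v) := by
  have h3 := D.tendsto_Th v χ 1 1 (Eventually.of_forall fun n x =>
    ((χ n).norm_coe_le_norm x).trans (h1 n)) (fun x => by simpa using h2 x)
  simpa using h3

theorem isClosed_gS : IsClosed (gS M ξ) := isClosed_closure

theorem rr_smooth {χ : ℝ →ᵇ ℂ} (h : ContDiff ℝ (⊤ : ℕ∞) χ) :
    ContDiff ℝ (⊤ : ℕ∞) (rr * χ : ℝ →ᵇ ℂ) := by
  have h1 : ContDiff ℝ (⊤ : ℕ∞) fun h : ℝ => 1 / (1 + Real.exp h) :=
    contDiff_const.div (by fun_prop) (fun h => by positivity)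
  have h2 := Complex.ofRealCLM.contDiff.comp h1
  exact h2.mul h

/-- the graph of `S` in terms of the functional calculus, resolvent form -/
theorem res_gS (ζ : H) : (D.Th rr ζ, D.J (D.Th ss ζ)) ∈ gS M ξ := by
  obtain ⟨χ, c1, c2, c3, c4, c5⟩ := exists_chi
  have hcont : Continuous fun ζ : H => (D.Th rr ζ, D.J (D.Th ss ζ)) := by
    have := D.J.continuous
    fun_prop
  have key : ∀ a ∈ M, ∀ n, (D.Th rr (D.Th (χ n) (a ξ)), D.J (D.Th ss (D.Th (χ n) (a ξ)))) ∈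
      gS M ξ := by
    intro a ha n
    have hc : HasCompactSupport (rr * χ n : ℝ →ᵇ ℂ) := (c2 n).mul_left
    obtain ⟨y, hy, hyx⟩ := D.smooth_mem ha (rr * χ n) (rr_smooth (c1 n)) hc
    have h1 := D.gd_J_star hy (rr * χ n) hc hyx
    have e1 : gdE (rr * χ n) hc = ss * χ n := by
      ext x
      simp only [gdM_apply, BoundedContinuousFunction.mul_apply, rr_apply, ss_apply]
      rw [← mul_assoc, ← Complex.ofReal_mul]
      congr 3
      ring
    rw [e1] at h1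
    have h2 : D.J (D.Th ss (D.Th (χ n) (a ξ))) = star y ξ := by
      rw [← D.gd_Th_mul, ← h1, D.J_J]
    rw [h2, ← D.gd_Th_mul, ← hyx]
    exact subset_closure ⟨y, hy, rfl⟩
  have key2 : ∀ a ∈ M, (D.Th rr (a ξ), D.J (D.Th ss (a ξ))) ∈ gS M ξ := by
    intro a ha
    refine isClosed_gS.mem_of_tendsto ((hcont.tendsto (a ξ)).comp (tendsto_chi D c3 c5 (a ξ)))
      (Eventually.of_forall fun n => key a ha n)
  have hcl : IsClosed {ζ : H | (D.Th rr ζ, D.J (D.Th ss ζ)) ∈ gS M ξ} :=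
    isClosed_gS.preimage hcont
  refine closure_minimal ?_ hcl (D.cyc ζ)
  rintro _ ⟨a, ha, rfl⟩
  exact key2 a ha

theorem res_adj (ζ : H) (a : H →L[ℂ] H) (ha : a ∈ M) :
    ⟪star a ξ, D.J (D.Th ss ζ)⟫_ℂ = ⟪ζ - D.Th rr ζ, a ξ⟫_ℂ := by
  rw [D.inner_J_right, D.gd_inner_Th, star_ss]
  have h1 : D.Th ss (D.J (star a ξ)) = D.Th (1 - rr) (a ξ) := by
    refine D.kms a ha _ _ fun h => ?_
    rw [BoundedContinuousFunction.sub_apply, rr_apply, ss_apply]
    have e1 : ((1 : ℝ →ᵇ ℂ) h) = ((1 : ℝ) : ℂ) := by simp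
    rw [e1, ← Complex.ofReal_sub, ← Complex.ofReal_mul]
    congr 1
    have h2 : Real.exp h = Real.exp (h / 2) * Real.exp (h / 2) := by
      rw [← Real.exp_add]; ring_nf
    have h3 : 0 < Real.exp h := Real.exp_pos h
    field_simp
    rw [h2]
    ring
  have h2 : D.Th (1 - rr) ζ = ζ - D.Th rr ζ := by
    rw [map_sub, map_one]; rfl
  rw [h1, ← h2, D.gd_inner_Th]
  congr 2
  rw [star_sub, star_one, star_rr]

theorem gS_sub {p q : H × H} (hp : p ∈ gS M ξ) (hq : q ∈ gS M ξ) : p - q ∈ gS M ξ := by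
  refine map_mem_closure₂ continuous_sub hp hq ?_
  rintro _ ⟨a, ha, rfl⟩ _ ⟨b, hb, rfl⟩
  exact ⟨a - b, sub_mem ha hb, by simp⟩

/-- two solutions of the resolvent equation agree -/
theorem res_unique {ζ ζ₁ ζ₂ θ₁ θ₂ : H} (h₁ : (ζ₁, θ₁) ∈ gS M ξ) (h₂ : (ζ₂, θ₂) ∈ gS M ξ)
    (k₁ : ∀ a ∈ M, ⟪star a ξ, θ₁⟫_ℂ = ⟪ζ - ζ₁, a ξ⟫_ℂ)
    (k₂ : ∀ a ∈ M, ⟪star a ξ, θ₂⟫_ℂ = ⟪ζ - ζ₂, a ξ⟫_ℂ) : ζ₁ = ζ₂ := by
  have h3 : (ζ₁ - ζ₂, θ₁ - θ₂) ∈ gS M ξ := gS_sub h₁ h₂
  have hcl : IsClosed {p : H × H | ⟪p.2, θ₁ - θ₂⟫_ℂ = ⟪ζ₂ - ζ₁, p.1⟫_ℂ} :=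
    isClosed_eq (by fun_prop) (by fun_prop)
  have h4 : (ζ₁ - ζ₂, θ₁ - θ₂) ∈ {p : H × H | ⟪p.2, θ₁ - θ₂⟫_ℂ = ⟪ζ₂ - ζ₁, p.1⟫_ℂ} := by
    refine closure_minimal ?_ hcl h3
    rintro _ ⟨a, ha, rfl⟩
    change ⟪star a ξ, θ₁ - θ₂⟫_ℂ = ⟪ζ₂ - ζ₁, a ξ⟫_ℂ
    rw [inner_sub_right, k₁ a ha, k₂ a ha, ← inner_sub_left]
    congr 1
    abel
  have h5 : ⟪θ₁ - θ₂, θ₁ - θ₂⟫_ℂ = ⟪ζ₂ - ζ₁, ζ₁ - ζ₂⟫_ℂ := h4
  have h6 : ζ₂ - ζ₁ = -(ζ₁ - ζ₂) := by abel
  rw [h6, inner_neg_left] at h5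
  have h7 := congrArg Complex.re h5
  rw [Complex.neg_re] at h7
  have h8 : 0 ≤ (⟪θ₁ - θ₂, θ₁ - θ₂⟫_ℂ).re := inner_self_nonneg (𝕜 := ℂ)
  have h9 : (⟪ζ₁ - ζ₂, ζ₁ - ζ₂⟫_ℂ).re = ‖ζ₁ - ζ₂‖ ^ 2 := inner_self_eq_norm_sq (𝕜 := ℂ) _
  have h10 : ‖ζ₁ - ζ₂‖ ^ 2 = 0 := by nlinarith [sq_nonneg ‖ζ₁ - ζ₂‖]
  exact sub_eq_zero.1 (norm_eq_zero.1 (pow_eq_zero_iff two_ne_zero |>.1 h10))

/-! ### all functions -/

/-- real bounded continuous functions with compact support are functions of `rr` -/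
theorem exists_comp_rr (F : ℝ → ℝ) (hF : Continuous F) (hc : HasCompactSupport F) :
    ∃ f : ℝ → ℝ, Continuous f ∧ ∀ h, f (1 / (1 + Real.exp h)) = F h := by
  obtain ⟨R, hR⟩ := hc.isBounded.subset_closedBall (0 : ℝ)
  obtain ⟨R', hR'⟩ : ∃ R', R' = max R 0 + 1 := ⟨_, rfl⟩
  have hR0 : 0 < R' := by rw [hR']; positivity
  have hRR : R < R' := by rw [hR']; linarith [le_max_left R 0]
  have hz : ∀ h, R' ≤ |h| → F h = 0 := by
    intro h hh
    by_contra hne
    have h1 : h ∈ Metric.closedBall (0 : ℝ) R := hR (subset_tsupport _ hne)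
    rw [Metric.mem_closedBall, dist_zero_right, Real.norm_eq_abs] at h1
    linarith
  set p : ℝ := 1 / (1 + Real.exp R') with hp
  set q : ℝ := 1 / (1 + Real.exp (-R')) with hq
  have hp0 : 0 < p := by rw [hp]; positivity
  have hq1 : q < 1 := by
    rw [hq, div_lt_one (by positivity)]; linarith [Real.exp_pos (-R')]
  have hanti : ∀ s t : ℝ, s ≤ t → 1 / (1 + Real.exp t) ≤ 1 / (1 + Real.exp s) := by
    intro s t hst
    have := Real.exp_le_exp.2 hst
    exact one_div_le_one_div_of_le (by positivity) (by linarith)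
  have hpq : p ≤ q := hanti _ _ (by linarith)
  set c : ℝ → ℝ := fun s => max p (min s q) with hcdef
  have hcc : Continuous c := by fun_prop
  have hc0 : ∀ s, 0 < c s := fun s => hp0.trans_le (le_max_left _ _)
  have hc1 : ∀ s, c s < 1 := fun s => max_lt (hpq.trans_lt hq1) ((min_le_right _ _).trans_lt hq1)
  refine ⟨fun s => F (Real.log (1 / c s - 1)), ?_, fun h => ?_⟩
  · refine hF.comp (Continuous.log ?_ fun s => ?_)
    · exact (continuous_const.div hcc fun s => (hc0 s).ne').sub continuous_const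
    · have h1 : 1 < 1 / c s := by
        rw [lt_div_iff₀ (hc0 s)]; linarith [hc1 s]
      linarith
  · have hinv : ∀ t : ℝ, Real.log (1 / (1 / (1 + Real.exp t)) - 1) = t := by
      intro t
      rw [one_div_one_div, add_sub_cancel_left, Real.log_exp]
    change F (Real.log (1 / c (1 / (1 + Real.exp h)) - 1)) = F h
    by_cases h1 : |h| ≤ R'
    · have h2 : c (1 / (1 + Real.exp h)) = 1 / (1 + Real.exp h) := by
        change max p (min _ q) = _
        rw [min_eq_left (hanti _ _ (by linarith [(abs_le.1 h1).1])),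
          max_eq_right (hanti _ _ (abs_le.1 h1).2)]
      rw [h2, hinv]
    · push Not at h1
      rw [hz h h1.le]
      rcases le_total 0 h with h2 | h2
      · rw [abs_of_nonneg h2] at h1
        have h3 : c (1 / (1 + Real.exp h)) = p := by
          change max p (min _ q) = _
          have h4 : 1 / (1 + Real.exp h) ≤ p := hanti _ _ h1.le
          rw [min_eq_left (h4.trans hpq), max_eq_left h4]
        rw [h3, hp, hinv]
        exact hz _ (le_abs_self _)
      · rw [abs_of_nonpos h2] at h1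
        have h3 : c (1 / (1 + Real.exp h)) = q := by
          change max p (min _ q) = _
          have h4 : q ≤ 1 / (1 + Real.exp h) := hanti _ _ (by linarith)
          rw [min_eq_right h4, max_eq_right hpq]
        rw [h3, hq, hinv]
        exact hz _ (by rw [abs_neg]; exact le_abs_self _)



section gen

variable (Φ Ψ : (ℝ →ᵇ ℂ) →⋆ₐ[ℂ] (H →L[ℂ] H))

/-- the bounded function `p (rr)` -/
theorem Th_aeval (P : Polynomial ℂ) :
    Φ (Polynomial.aeval rr P) = Polynomial.aeval (Φ rr) P :=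
  (Polynomial.aeval_algHom_apply Φ.toAlgHom rr _).symm

theorem aeval_rr_apply (P : Polynomial ℝ) (h : ℝ) :
    (Polynomial.aeval rr (P.map (algebraMap ℝ ℂ)) : ℝ →ᵇ ℂ) h =
      ((P.eval (1 / (1 + Real.exp h)) : ℝ) : ℂ) := by
  induction P using Polynomial.induction_on' with
  | add p q hp hq =>
    rw [Polynomial.map_add, map_add, BoundedContinuousFunction.add_apply, hp, hq,
      Polynomial.eval_add, Complex.ofReal_add]
  | monomial n a =>
    rw [Polynomial.map_monomial, Polynomial.aeval_monomial, Polynomial.eval_monomial,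
      BoundedContinuousFunction.mul_apply, BoundedContinuousFunction.pow_apply, rr_apply,
      Complex.ofReal_mul, Complex.ofReal_pow]
    rfl

variable {Φ Ψ} (hrr : Φ rr = Ψ rr)

include hrr

theorem hom_unique_real (F : ℝ →ᵇ ℂ) (f : ℝ → ℝ) (hf : Continuous f) (hFf : ∀ h, F h = (f h : ℂ))
    (hc : HasCompactSupport f) : Φ F = Ψ F := by
  obtain ⟨g, hg, hgf⟩ := exists_comp_rr f hf hc
  have key : ∀ ε > 0, ‖Φ F - Ψ F‖ ≤ 2 * ε := by
    intro ε hε
    obtain ⟨P, hP⟩ := exists_polynomial_near_of_continuousOn 0 1 g hg.continuousOn ε hε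
    obtain ⟨G, hG⟩ : ∃ G : ℝ →ᵇ ℂ, G = Polynomial.aeval rr (P.map (algebraMap ℝ ℂ)) := ⟨_, rfl⟩
    have h1 : ‖G - F‖ ≤ ε := by
      rw [BoundedContinuousFunction.norm_le hε.le]
      intro h
      rw [BoundedContinuousFunction.sub_apply, hG, aeval_rr_apply, hFf, ← hgf,
        ← Complex.ofReal_sub, Complex.norm_real, Real.norm_eq_abs]
      refine (hP _ ⟨by positivity, ?_⟩).le
      rw [div_le_one (by positivity)]
      linarith [Real.exp_pos h]
    have h2 : Φ G = Ψ G := by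
      rw [hG, Th_aeval, Th_aeval, hrr]
    have h3 : Φ F - Ψ F = Ψ (G - F) - Φ (G - F) := by
      rw [map_sub, map_sub, h2]; abel
    rw [h3]
    calc ‖Ψ (G - F) - Φ (G - F)‖ ≤ ‖Ψ (G - F)‖ + ‖Φ (G - F)‖ := norm_sub_le _ _
      _ ≤ ε + ε := add_le_add ((NonUnitalStarAlgHom.norm_apply_le Ψ _).trans h1)
          ((NonUnitalStarAlgHom.norm_apply_le Φ _).trans h1)
      _ = 2 * ε := by ring
  have h4 : ‖Φ F - Ψ F‖ ≤ 0 := by
    refine le_of_forall_pos_le_add fun ε hε => ?_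
    have := key (ε / 2) (by positivity)
    linarith
  exact sub_eq_zero.1 (norm_eq_zero.1 (le_antisymm h4 (norm_nonneg _)))

theorem hom_unique_cpt (F : ℝ →ᵇ ℂ) (hc : HasCompactSupport F) : Φ F = Ψ F := by
  have hsr : HasCompactSupport fun h => (F h).re := hc.comp_left (g := Complex.re) Complex.zero_re
  have hsi : HasCompactSupport fun h => (F h).im := hc.comp_left (g := Complex.im) Complex.zero_im
  obtain ⟨F₁, hF₁⟩ : ∃ F₁ : ℝ →ᵇ ℂ, ∀ h, F₁ h = ((F h).re : ℂ) :=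
    ⟨BoundedContinuousFunction.ofNormedAddCommGroup (fun h => ((F h).re : ℂ)) (by fun_prop) ‖F‖
      (fun h => by
        rw [Complex.norm_real]
        exact (Complex.abs_re_le_norm _).trans (F.norm_coe_le_norm h)), fun h => rfl⟩
  obtain ⟨F₂, hF₂⟩ : ∃ F₂ : ℝ →ᵇ ℂ, ∀ h, F₂ h = ((F h).im : ℂ) :=
    ⟨BoundedContinuousFunction.ofNormedAddCommGroup (fun h => ((F h).im : ℂ)) (by fun_prop) ‖F‖
      (fun h => by
        rw [Complex.norm_real]
        exact (Complex.abs_im_le_norm _).trans (F.norm_coe_le_norm h)), fun h => rfl⟩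
  have e : F = F₁ + Complex.I • F₂ := by
    ext h
    rw [BoundedContinuousFunction.add_apply, BoundedContinuousFunction.smul_apply, hF₁, hF₂,
      smul_eq_mul, mul_comm]
    exact (Complex.re_add_im _).symm
  have e1 := hom_unique_real hrr F₁ _ (by fun_prop) hF₁ hsr
  have e2 := hom_unique_real hrr F₂ _ (by fun_prop) hF₂ hsi
  rw [e, _root_.map_add Φ, _root_.map_add Ψ, map_smul Φ, map_smul Ψ, e1, e2]

theorem hom_unique
    (h1 : ∀ (χ : ℕ → ℝ →ᵇ ℂ) (v : H), (∀ n, ‖χ n‖ ≤ 1) →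
      (∀ x, Tendsto (fun n => χ n x) atTop (𝓝 1)) → Tendsto (fun n => Φ (χ n) v) atTop (𝓝 v))
    (F : ℝ →ᵇ ℂ) (v : H) : Φ F v = Ψ F v := by
  obtain ⟨χ, c1, c2, c3, c4, c5⟩ := exists_chi
  have h2 : ∀ n, Φ F (Φ (χ n) v) = Ψ F (Φ (χ n) v) := by
    intro n
    have h3 : Φ (F * χ n) = Ψ (F * χ n) := hom_unique_cpt hrr _ ((c2 n).mul_left)
    rw [map_mul, map_mul, hom_unique_cpt hrr _ (c2 n)] at h3
    have h4 := congrArg (fun T : H →L[ℂ] H => T v) h3
    rw [hom_unique_cpt hrr _ (c2 n)]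
    exact h4
  have h5 := ((Φ F).continuous.tendsto v).comp (h1 χ v c3 c5)
  have h6 := ((Ψ F).continuous.tendsto v).comp (h1 χ v c3 c5)
  exact tendsto_nhds_unique (h5.congr fun n => h2 n) h6

end gen

/-! ### naturality -/

section nat

variable {M' : VonNeumannAlgebra H} (E : ModData M ξ) (E' : ModData M' ξ) (W : H ≃ₗᵢ[ℂ] H)
  (hW : W ξ = ξ) (hM : ∀ Y ∈ M', ∃ X ∈ M, ∀ z, Y (W z) = W (X z))

/-- the functional calculus of `M'` transported by `W` -/
noncomputable def Tc : (ℝ →ᵇ ℂ) →⋆ₐ[ℂ] (H →L[ℂ] H) :=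
  (W.conjStarAlgEquiv.symm : (H →L[ℂ] H) →⋆ₐ[ℂ] (H →L[ℂ] H)).comp E'.Th

theorem Tc_apply (F : ℝ →ᵇ ℂ) (v : H) : Tc E' W F v = W.symm (E'.Th F (W v)) := rfl

include hW hM

theorem star_conj {X Y : H →L[ℂ] H} (h : ∀ z, Y (W z) = W (X z)) (z : H) :
    star Y (W z) = W (star X z) := by
  refine ext_inner_left ℂ fun w => ?_
  have h1 : w = W (W.symm w) := (W.apply_symm_apply w).symm
  rw [h1, ContinuousLinearMap.star_eq_adjoint, ContinuousLinearMap.star_eq_adjoint,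
    ContinuousLinearMap.adjoint_inner_right, h, W.inner_map_map, W.inner_map_map,
    ContinuousLinearMap.adjoint_inner_right]

theorem gS_conj {p : H × H} (hp : p ∈ gS M' ξ) : (W.symm p.1, W.symm p.2) ∈ gS M ξ := by
  have hc : Continuous fun p : H × H => (W.symm p.1, W.symm p.2) := by fun_prop
  have key : (fun p : H × H => (W.symm p.1, W.symm p.2)) p ∈
      closure {p : H × H | ∃ a ∈ M, p = (a ξ, star a ξ)} := by
    refine map_mem_closure (f := fun p : H × H => (W.symm p.1, W.symm p.2)) hc hp ?_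
    rintro _ ⟨Y, hY, rfl⟩
    obtain ⟨X, hX, h⟩ := hM Y hY
    refine ⟨X, hX, ?_⟩
    have h1 : Y ξ = W (X ξ) := by rw [← h, hW]
    have h2 : star Y ξ = W (star X ξ) := by
      have := star_conj W hW hM h ξ
      rwa [hW] at this
    simp [h1, h2]
  exact key

theorem rr_conj (hM2 : ∀ X ∈ M, ∃ Y ∈ M', ∀ z, Y (W z) = W (X z)) :
    E.Th rr = Tc E' W rr := by
  ext ζ
  refine res_unique (res_gS E ζ) (gS_conj W hW hM (res_gS E' (W ζ))) (res_adj E ζ) ?_
  intro a ha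
  obtain ⟨Y, hY, h⟩ := hM2 a ha
  have h1 : Y ξ = W (a ξ) := by rw [← h, hW]
  have h2 : star Y ξ = W (star a ξ) := by
    have := star_conj W hW hM h ξ
    rwa [hW] at this
  have h3 := res_adj E' (W ζ) Y hY
  rw [h1, h2] at h3
  have h4 : W ζ - E'.Th rr (W ζ) = W (ζ - W.symm (E'.Th rr (W ζ))) := by
    rw [map_sub, W.apply_symm_apply]
  have h5 : E'.J (E'.Th ss (W ζ)) = W (W.symm (E'.J (E'.Th ss (W ζ)))) :=
    (W.apply_symm_apply _).symm
  rw [h4, h5, W.inner_map_map, W.inner_map_map] at h3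
  exact h3

end nat

/-- **Block E**: uniqueness and naturality of the modular unitaries. -/
theorem U_nat {M' : VonNeumannAlgebra H} (E : ModData M ξ) (E' : ModData M' ξ) (W : H ≃ₗᵢ[ℂ] H)
    (hW : W ξ = ξ) (hM2 : ∀ X ∈ M, ∃ Y ∈ M', ∀ z, Y (W z) = W (X z))
    (hM : ∀ Y ∈ M', ∃ X ∈ M, ∀ z, Y (W z) = W (X z)) (t : ℝ) (z : H) :
    W (E.U t z) = E'.U t (W z) := by
  have h1 := hom_unique (rr_conj E E' W hW hM hM2)
    (fun χ v c c' => tendsto_chi E c c' v) (expB t) z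
  rw [Tc_apply] at h1
  change W (E.Th (expB t) z) = E'.Th (expB t) (W z)
  rw [h1, W.apply_symm_apply]

/-- **Uniqueness of the functional calculus of `log Δ`.** -/
theorem Th_unique (E E' : ModData M ξ) (F : ℝ →ᵇ ℂ) (v : H) : E.Th F v = E'.Th F v := by
  have h0 : E.Th rr = E'.Th rr := by
    ext ζ
    exact res_unique (res_gS E ζ) (res_gS E' ζ) (res_adj E ζ) (res_adj E' ζ)
  exact hom_unique h0 (fun χ v c c' => tendsto_chi E c c' v) F v

/-- **Uniqueness of the modular conjugation.** -/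
theorem J_unique (E E' : ModData M ξ) (v : H) : E.J v = E'.J v := by
  have key : ∀ a ∈ M, E.J (a ξ) = E'.J (a ξ) := by
    intro a ha
    rw [← sub_eq_zero]
    apply E.gd_zero
    intro G hG
    have h1 := E.kms (star a) (star_mem ha) (gdE G hG) G (fun x => rfl)
    have h2 := E'.kms (star a) (star_mem ha) (gdE G hG) G (fun x => rfl)
    rw [star_star] at h1 h2
    rw [map_sub, h1, Th_unique E E' G, h2, Th_unique E E' (gdE G hG), sub_self]
  have hcl : IsClosed {v : H | E.J v = E'.J v} := isClosed_eq E.J.continuous E'.J.continuous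
  refine closure_minimal ?_ hcl (E.cyc v)
  rintro _ ⟨a, ha, rfl⟩
  exact key a ha

end Vale.Agent.P352.BW.H234
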