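import Mathlib

/-!
# P352 BW (helper234): bounded analytic functions on the strip `-1/2 ≤ Im z ≤ 0`
-/

open Complex Filter Topology Set

namespace Vale.Agent.P352.BW.H234U

/-- the open strip -/
def So : Set ℂ := {z | -(1 / 2) < z.im ∧ z.im < 0}

/-- the closed strip -/
def Sc : Set ℂ := {z | -(1 / 2) ≤ z.im ∧ z.im ≤ 0}

theorem isOpen_So : IsOpen So :=
  (isOpen_lt continuous_const continuous_im).inter (isOpen_lt continuous_im continuous_const)

theorem closure_So : closure So = Sc := by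
  have h1 : So = im ⁻¹' Ioo (-(1 / 2)) 0 := rfl
  have h2 : Sc = im ⁻¹' Icc (-(1 / 2)) 0 := rfl
  rw [h1, h2, closure_preimage_im, closure_Ioo (by norm_num)]

theorem real_mem (t : ℝ) : (t : ℂ) ∈ Sc := ⟨by simp, by simp⟩

theorem low_mem (t : ℝ) : (t : ℂ) - I / 2 ∈ Sc := by
  constructor <;> simp <;> norm_num

/-- the class of functions -/
structure Bd (F : ℂ → ℂ) : Prop where
  dc : DiffContOnCl ℂ F So
  bd : ∃ C, ∀ z ∈ Sc, ‖F z‖ ≤ C

theorem three {F : ℂ → ℂ} (hF : Bd F) {c d : ℝ} (h0 : ∀ t : ℝ, ‖F t‖ ≤ c)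
    (h1 : ∀ t : ℝ, ‖F (t - I / 2)‖ ≤ d) {z : ℂ} (hz : z ∈ Sc) :
    ‖F z‖ ≤ c ^ (1 - (-z.im) / (1 / 2)) * d ^ ((-z.im) / (1 / 2)) := by
  obtain ⟨C, hC⟩ := hF.bd
  have hm : ∀ w : ℂ, w ∈ HadamardThreeLines.verticalClosedStrip 0 (1 / 2) → -I * w ∈ Sc := by
    intro w hw
    have hw : w.re ∈ Icc (0 : ℝ) (1 / 2) := hw
    constructor
    · simp; linarith [hw.2]
    · simp; linarith [hw.1]
  have hd : DiffContOnCl ℂ (fun w => F (-I * w)) (HadamardThreeLines.verticalStrip 0 (1 / 2)) := by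
    refine hF.dc.comp (g := fun w => -I * w) ?_ ?_
    · exact (differentiable_id.const_mul (-I)).diffContOnCl
    · intro w hw
      have hw : w.re ∈ Ioo (0 : ℝ) (1 / 2) := hw
      constructor
      · simp; linarith [hw.2]
      · simp; linarith [hw.1]
  have h := HadamardThreeLines.norm_le_interp_of_mem_verticalClosedStrip' (f := fun w => F (-I * w))
    (z := I * z) (a := c) (b := d) (l := 0) (u := 1 / 2) (by norm_num) (by
      show (I * z).re ∈ Icc (0 : ℝ) (1 / 2)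
      simp
      exact ⟨hz.2, by linarith [hz.1]⟩) hd
    ⟨C, by rintro _ ⟨w, hw, rfl⟩; exact hC _ (hm w hw)⟩ (by
      intro w hw
      have hw : w.re = 0 := hw
      have e : -I * w = ((w.im : ℝ) : ℂ) := by
        apply Complex.ext <;> simp [hw]
      simp only [e]
      exact h0 _) (by
      intro w hw
      have hw : w.re = 1 / 2 := hw
      have e : -I * w = ((w.im : ℝ) : ℂ) - I / 2 := by
        apply Complex.ext <;> simp [hw]
      simp only [e]
      exact h1 _)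
  have e : -I * (I * z) = z := by rw [← mul_assoc]; simp
  simpa [e] using h

theorem bound {F : ℂ → ℂ} (hF : Bd F) {c : ℝ} (hc : 0 ≤ c) (h0 : ∀ t : ℝ, ‖F t‖ ≤ c)
    (h1 : ∀ t : ℝ, ‖F (t - I / 2)‖ ≤ c) {z : ℂ} (hz : z ∈ Sc) : ‖F z‖ ≤ c := by
  refine (three hF h0 h1 hz).trans (le_of_eq ?_)
  rcases hc.eq_or_lt with rfl | hc
  · rcases eq_or_ne (1 - -z.im / (1 / 2)) 0 with h | h
    · have h2 : -z.im / (1 / 2) = 1 := by linarith
      rw [h, h2]; simp
    · rw [Real.zero_rpow h]; simp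
  · rw [← Real.rpow_add hc]; simp

theorem low_lim {F : ℂ → ℂ} (hF : DiffContOnCl ℂ F So) (t : ℝ) :
    Tendsto (fun y : ℝ => F (t - y * I)) (𝓝[<] (1 / 2)) (𝓝 (F (t - I / 2))) := by
  have hc : ContinuousOn F Sc := closure_So ▸ hF.continuousOn
  have h1 := hc _ (low_mem t)
  have h2 : Tendsto (fun y : ℝ => (t : ℂ) - y * I) (𝓝[<] (1 / 2)) (𝓝[Sc] ((t : ℂ) - I / 2)) := by
    refine tendsto_nhdsWithin_iff.2 ⟨?_, ?_⟩
    · have : Tendsto (fun y : ℝ => (t : ℂ) - y * I) (𝓝 (1 / 2)) (𝓝 ((t : ℂ) - ((1 / 2 : ℝ) : ℂ) * I)) := by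
        exact (Continuous.tendsto (by fun_prop) _)
      have e : (t : ℂ) - ((1 / 2 : ℝ) : ℂ) * I = t - I / 2 := by push_cast; ring
      rw [e] at this
      exact this.mono_left nhdsWithin_le_nhds
    · have h3 : ∀ᶠ y : ℝ in 𝓝[<] (1 / 2), 0 < y :=
        nhdsWithin_le_nhds (lt_mem_nhds (by norm_num))
      filter_upwards [h3, self_mem_nhdsWithin] with y hy hy2
      have hy2 : y < 1 / 2 := hy2
      constructor
      · simp; linarith
      · simp; linarith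
  exact h1.tendsto.comp h2

theorem uniq0 {F : ℂ → ℂ} (hF : Bd F) (h0 : ∀ t : ℝ, F t = 0) {z : ℂ} (hz : z ∈ Sc) : F z = 0 := by
  obtain ⟨C, hC⟩ := hF.bd
  have key : ∀ z ∈ Sc, -(1 / 2) < z.im → F z = 0 := by
    intro z hz hz1
    have h := three hF (c := 0) (d := C) (fun t => by rw [h0]; simp) (fun t => hC _ (low_mem t)) hz
    rw [Real.zero_rpow (by
      have : 0 < 1 - -z.im / (1 / 2) := by
        have : -z.im / (1 / 2) < 1 := by rw [div_lt_one (by norm_num)]; linarith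
        linarith
      exact this.ne'), zero_mul] at h
    exact norm_le_zero_iff.1 h
  rcases hz.1.lt_or_eq with h | h
  · exact key z hz h
  · have e : z = (z.re : ℂ) - I / 2 := by
      apply Complex.ext
      · simp
      · simp; linarith
    have hl := low_lim hF.dc z.re
    have h3 : (fun y : ℝ => F (z.re - y * I)) =ᶠ[𝓝[<] (1 / 2)] fun _ => 0 := by
      have h3 : ∀ᶠ y : ℝ in 𝓝[<] (1 / 2), 0 < y :=
        nhdsWithin_le_nhds (lt_mem_nhds (by norm_num))
      filter_upwards [h3, self_mem_nhdsWithin] with y hy hy2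
      have hy2 : y < 1 / 2 := hy2
      refine key _ ⟨?_, ?_⟩ ?_
      · simp; linarith
      · simp; linarith
      · simp; linarith
    rw [e]
    exact tendsto_nhds_unique (hl.congr' h3) tendsto_const_nhds

theorem Bd.sub {F G : ℂ → ℂ} (hF : Bd F) (hG : Bd G) : Bd (fun z => F z - G z) := by
  obtain ⟨C, hC⟩ := hF.bd
  obtain ⟨C', hC'⟩ := hG.bd
  exact ⟨hF.dc.sub hG.dc, C + C', fun z hz => (norm_sub_le _ _).trans (add_le_add (hC z hz) (hC' z hz))⟩

theorem Bd.add {F G : ℂ → ℂ} (hF : Bd F) (hG : Bd G) : Bd (fun z => F z + G z) := by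
  obtain ⟨C, hC⟩ := hF.bd
  obtain ⟨C', hC'⟩ := hG.bd
  exact ⟨hF.dc.add hG.dc, C + C', fun z hz => (norm_add_le _ _).trans (add_le_add (hC z hz) (hC' z hz))⟩

theorem Bd.const_mul {F : ℂ → ℂ} (hF : Bd F) (c : ℂ) : Bd (fun z => c * F z) := by
  obtain ⟨C, hC⟩ := hF.bd
  refine ⟨hF.dc.const_smul c, ‖c‖ * C, fun z hz => ?_⟩
  rw [norm_mul]
  exact mul_le_mul_of_nonneg_left (hC z hz) (norm_nonneg _)

theorem uniq {F G : ℂ → ℂ} (hF : Bd F) (hG : Bd G) (h0 : ∀ t : ℝ, F t = G t) {z : ℂ}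
    (hz : z ∈ Sc) : F z = G z :=
  sub_eq_zero.1 (uniq0 (hF.sub hG) (fun t => sub_eq_zero.2 (h0 t)) hz)

end Vale.Agent.P352.BW.H234U
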