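import Vale.Agent.P352.BW.Spec
import Vale.Agent.P352.BW.A
import Vale.Agent.P352.BW.B
import Vale.Agent.P352.BW.C
import Vale.Agent.P352.BW.E
import Vale.Agent.P352.BW.T.N
import Vale.Agent.P352.BW.H234.StripU

/-!
# P352 BW (helper234): uniqueness of the modular unitaries (`IsMod`)
-/

set_option linter.all false

open MeasureTheory Filter Topology Complex
open scoped ComplexConjugate InnerProductSpace BoundedContinuousFunction

namespace Vale.Agent.P352.BW.H234U

open Vale.Agent.P132 (ModData expB)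

noncomputable section

variable {H : Type*} [NormedAddCommGroup H] [InnerProductSpace ℂ H] [CompleteSpace H]

/-- a bijection that preserves the inner product is a linear isometry -/
def mkW (f g : H → H) (h1 : ∀ x y, inner ℂ (f x) (f y) = inner ℂ x y) (hfg : ∀ x, f (g x) = x)
    (hgf : ∀ x, g (f x) = x) : H ≃ₗᵢ[ℂ] H where
  toFun := f
  invFun := g
  left_inv := hgf
  right_inv := hfg
  map_add' x y := by
    refine ext_inner_right ℂ fun w => ?_
    rw [← hfg w, inner_add_left, h1, h1, h1, inner_add_left]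
  map_smul' c x := by
    refine ext_inner_right ℂ fun w => ?_
    simp only [RingHom.id_apply]
    rw [← hfg w, inner_smul_left, h1, h1, inner_smul_left]
  norm_map' x := by
    show ‖f x‖ = ‖x‖
    rw [@norm_eq_sqrt_re_inner ℂ, @norm_eq_sqrt_re_inner ℂ _ _ _ _ x, h1]

variable {M : VonNeumannAlgebra H} {ξ : H} {V : ℝ → H → H} {J : H → H}

theorem V_zero (h : IsMod M ξ V J) (x : H) : V 0 x = x := by
  refine ext_inner_right ℂ fun w => ?_
  have h1 : V 0 (V 0 x) = V 0 x := by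
    have := h.add 0 0 x
    rw [add_zero] at this
    exact this.symm
  have h2 := h.inn 0 (V 0 x) w
  rw [h1, h.inn] at h2
  exact h2.symm

theorem V_inv (h : IsMod M ξ V J) (t : ℝ) (x : H) : V t (V (-t) x) = x := by
  rw [← h.add, add_neg_cancel, V_zero h]

theorem V_inv' (h : IsMod M ξ V J) (t : ℝ) (x : H) : V (-t) (V t x) = x := by
  rw [← h.add, neg_add_cancel, V_zero h]

/-- `V t` as a unitary -/
def VW (h : IsMod M ξ V J) (t : ℝ) : H ≃ₗᵢ[ℂ] H :=
  mkW (V t) (V (-t)) (h.inn t) (V_inv h t) (V_inv' h t)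

theorem VW_apply (h : IsMod M ξ V J) (t : ℝ) (x : H) : VW h t x = V t x := rfl

theorem V_norm (h : IsMod M ξ V J) (t : ℝ) (x : H) : ‖V t x‖ = ‖x‖ := (VW h t).norm_map x

theorem J_norm (h : IsMod M ξ V J) (x : H) : ‖J x‖ = ‖x‖ := by
  rw [@norm_eq_sqrt_re_inner ℂ, @norm_eq_sqrt_re_inner ℂ _ _ _ _ x, h.jinn]

variable (E : ModData M ξ)

theorem V_nat (h : IsMod M ξ V J) (t : ℝ) :
    (∀ s z, V t (E.U s z) = E.U s (V t z)) ∧ (∀ F z, V t (E.Th F z) = E.Th F (V t z)) ∧
      ∀ z, V t (E.J z) = E.J (V t z) := by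
  have h1 : ∀ X ∈ M, ∃ Y ∈ M, ∀ z, Y (VW h t z) = VW h t (X z) := fun X hX => h.inv t X hX
  have h2 : ∀ Y ∈ M, ∃ X ∈ M, ∀ z, Y (VW h t z) = VW h t (X z) := by
    intro Y hY
    obtain ⟨X, hX, e⟩ := h.inv (-t) Y hY
    refine ⟨X, hX, fun z => ?_⟩
    have := e (V t z)
    rw [V_inv' h] at this
    rw [VW_apply, VW_apply, this, V_inv h]
  exact T.nat_all (fun M M' ξ E E' W a b c => eblock M M' ξ E E' W a b c) E E (VW h t) (h.vac t)
    h1 h2

/-- `J E.J` as a unitary -/
def UU (h : IsMod M ξ V J) : H ≃ₗᵢ[ℂ] H :=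
  mkW (fun x => J (E.J x)) (fun x => E.J (J x)) (fun x y => by rw [h.jinn, E.inner_J_J])
    (fun x => by rw [E.J_J, h.jj]) (fun x => by rw [h.jj, E.J_J])

theorem UU_apply (h : IsMod M ξ V J) (x : H) : UU E h x = J (E.J x) := rfl

theorem J_eq (h : IsMod M ξ V J) (x : H) : J x = UU E h (E.J x) := by rw [UU_apply, E.J_J]

theorem J_cont (h : IsMod M ξ V J) (E : ModData M ξ) : Continuous J := by
  have : J = fun x => UU E h (E.J x) := funext fun x => J_eq E h x
  rw [this]
  exact (UU E h).continuous.comp E.J.continuous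

/-- the vector valued continuation of `t ↦ V t (X ξ)` -/
theorem exists_k (h : IsMod M ξ V J) {X : H →L[ℂ] H} (hX : X ∈ M) : ∃ (k : ℂ → H) (B : ℝ),
    (∀ z ∈ Sc, ‖k z‖ ≤ B) ∧ (∀ y, Bd (fun z => inner ℂ y (k z))) ∧
    (∀ t : ℝ, k t = V t (X ξ)) ∧ ∀ t : ℝ, k (t - I / 2) = V t (J (star X ξ)) := by
  choose F hF using h.kms X hX
  have hB : ∀ y, Bd (F y) := fun y => ⟨(hF y).1, by
    obtain ⟨C, hC⟩ := (hF y).2.1
    exact ⟨C, fun z hz => hC z hz.1 hz.2⟩⟩
  set B : ℝ := max ‖X ξ‖ ‖star X ξ‖ with hBdef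
  have hB0 : 0 ≤ B := (norm_nonneg _).trans (le_max_left _ _)
  have hadd : ∀ y y' z, z ∈ Sc → F (y + y') z = F y z + F y' z := by
    intro y y' z hz
    refine uniq (hB _) ((hB y).add (hB y')) (fun t => ?_) hz
    rw [((hF _).2.2 t).1, ((hF _).2.2 t).1, ((hF _).2.2 t).1, inner_add_left]
  have hsmul : ∀ (c : ℂ) y z, z ∈ Sc → F (c • y) z = conj c * F y z := by
    intro c y z hz
    refine uniq (hB _) ((hB y).const_mul (conj c)) (fun t => ?_) hz
    rw [((hF _).2.2 t).1, ((hF _).2.2 t).1, inner_smul_left]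
  have hbd : ∀ y z, z ∈ Sc → ‖F y z‖ ≤ B * ‖y‖ := by
    intro y z hz
    refine bound (hB y) (by positivity) (fun t => ?_) (fun t => ?_) hz
    · rw [((hF y).2.2 t).1]
      refine (norm_inner_le_norm _ _).trans ?_
      rw [V_norm h, mul_comm]
      exact mul_le_mul_of_nonneg_right (le_max_left _ _) (norm_nonneg _)
    · rw [((hF y).2.2 t).2]
      refine (norm_inner_le_norm _ _).trans ?_
      rw [V_norm h, J_norm h, mul_comm]
      exact mul_le_mul_of_nonneg_right (le_max_right _ _) (norm_nonneg _)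
  have hex : ∀ z, ∃ k : H, z ∈ Sc → ‖k‖ ≤ B ∧ ∀ y, inner ℂ y k = F y z := by
    intro z
    by_cases hz : z ∈ Sc
    · let L : H →ₗ[ℂ] ℂ :=
        { toFun := fun y => conj (F y z)
          map_add' := fun y y' => by rw [hadd y y' z hz, map_add]
          map_smul' := fun c y => by rw [hsmul c y z hz, map_mul, Complex.conj_conj]; rfl }
      let L' : H →L[ℂ] ℂ := L.mkContinuous B (fun y => by
        show ‖conj (F y z)‖ ≤ _
        rw [RCLike.norm_conj]; exact hbd y z hz)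
      refine ⟨(InnerProductSpace.toDual ℂ H).symm L', fun _ => ⟨?_, fun y => ?_⟩⟩
      · rw [LinearIsometryEquiv.norm_map]
        exact LinearMap.mkContinuous_norm_le _ hB0 _
      · rw [← inner_conj_symm, InnerProductSpace.toDual_symm_apply]
        show conj (conj (F y z)) = _
        rw [Complex.conj_conj]
    · exact ⟨0, fun h => absurd h hz⟩
  choose k hk using hex
  refine ⟨k, B, fun z hz => (hk z hz).1, fun y => ?_, fun t => ?_, fun t => ?_⟩
  · refine ⟨⟨?_, ?_⟩, ?_⟩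
    · refine (hB y).dc.differentiableOn.congr fun z hz => ?_
      exact (hk z (closure_So ▸ subset_closure hz)).2 y
    · refine (hB y).dc.continuousOn.congr fun z hz => ?_
      rw [closure_So] at hz
      exact (hk z hz).2 y
    · obtain ⟨C, hC⟩ := (hB y).bd
      refine ⟨C, fun z hz => ?_⟩
      rw [(hk z hz).2 y]
      exact hC z hz
  · refine ext_inner_left ℂ fun y => ?_
    rw [(hk _ (real_mem t)).2 y, ((hF y).2.2 t).1]
  · refine ext_inner_left ℂ fun y => ?_
    rw [(hk _ (low_mem t)).2 y, ((hF y).2.2 t).2]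

/-- `J` commutes with `E.U s` -/
theorem J_U (h : IsMod M ξ V J) (s : ℝ) (z : H) : J (E.U s z) = E.U s (J z) := by
  have hJ := J_cont h E
  have hcl : IsClosed {z : H | J (E.U s z) = E.U s (J z)} :=
    isClosed_eq (hJ.comp (E.U s).continuous) ((E.U s).continuous.comp hJ)
  have hsub : {ζ : H | ∃ a ∈ M, a ξ = ζ} ⊆ {z : H | J (E.U s z) = E.U s (J z)} := by
    rintro _ ⟨b, hb, rfl⟩
    show J (E.U s (b ξ)) = E.U s (J (b ξ))
    have ha : star b ∈ M := star_mem hb
    obtain ⟨k, B, -, k2, k3, k4⟩ := exists_k h ha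
    obtain ⟨k', B', -, k2', k3', k4'⟩ := exists_k h (E.sg_mem ha s)
    refine ext_inner_left ℂ fun y => ?_
    have key := uniq (k2' y) (k2 (E.U (-s) y)) (fun t => ?_) (low_mem 0)
    · rw [k4, k4', E.star_sg, star_star, E.sg_xi] at key
      rw [V_zero h, V_zero h] at key
      rw [key, ← E.inner_U_U s, E.U_apply_neg]
    · rw [k3, k3', E.sg_xi, (V_nat E h t).1, ← E.inner_U_U (-s) y, E.U_neg_apply]
  have h3 := E.cyc.closure_eq ▸ hcl.closure_subset_iff.2 hsub
  exact h3 (Set.mem_univ z)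

theorem UU_U (h : IsMod M ξ V J) (s : ℝ) (z : H) : UU E h (E.U s z) = E.U s (UU E h z) := by
  rw [UU_apply, UU_apply, E.J_U, J_U E h]

theorem UU_Th (h : IsMod M ξ V J) (F : ℝ →ᵇ ℂ) (z : H) :
    UU E h (E.Th F z) = E.Th F (UU E h z) := T.nat_Th E E (UU E h) (UU_U E h) F z

theorem UU_V (h : IsMod M ξ V J) (t : ℝ) (z : H) : UU E h (V t z) = V t (UU E h z) := by
  rw [UU_apply, UU_apply, ← (V_nat E h t).2.2, h.jv]

/-! ### products of weakly and strongly analytic functions -/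

theorem wk {l : Filter ℂ} {u k : ℂ → H} {u0 : H} {c : ℂ} {B : ℝ} (hu : Tendsto u l (𝓝 u0))
    (hk : Tendsto (fun z => inner ℂ u0 (k z)) l (𝓝 c)) (hb : ∀ᶠ z in l, ‖k z‖ ≤ B) :
    Tendsto (fun z => inner ℂ (u z) (k z)) l (𝓝 c) := by
  have h1 : Tendsto (fun z => inner ℂ (u z - u0) (k z)) l (𝓝 0) := by
    have h2 : Tendsto (fun z => ‖u z - u0‖ * B) l (𝓝 0) := by
      have := (tendsto_iff_norm_sub_tendsto_zero.1 hu).mul_const B
      simpa using this
    refine squeeze_zero_norm' ?_ h2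
    filter_upwards [hb] with z hz
    exact (norm_inner_le_norm _ _).trans (mul_le_mul_of_nonneg_left hz (norm_nonneg _))
  have h3 := h1.add hk
  rw [zero_add] at h3
  refine h3.congr fun z => ?_
  rw [inner_sub_left]; ring

theorem prodB {k A : ℂ → H} {B : ℝ} (hb : ∀ z ∈ Sc, ‖k z‖ ≤ B)
    (hk : ∀ y, Bd (fun z => inner ℂ y (k z))) (hA : Differentiable ℂ A)
    (hAb : ∃ C, ∀ z ∈ Sc, ‖A (conj z)‖ ≤ C) : Bd (fun z => inner ℂ (A (conj z)) (k z)) := by
  obtain ⟨C, hC⟩ := hAb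
  have hAc : Continuous fun z : ℂ => A (conj z) := hA.continuous.comp Complex.continuous_conj
  refine ⟨⟨fun z0 hz0 => ?_, ?_⟩, C * B, fun z hz => ?_⟩
  · have hn : So ∈ 𝓝 z0 := isOpen_So.mem_nhds hz0
    have hd := ((hk (A (conj z0))).dc.differentiableOn.differentiableAt hn).hasDerivAt
    set d := deriv (fun z => inner ℂ (A (conj z0)) (k z)) z0 with hdd
    have hA' := (hA (conj z0)).hasDerivAt
    have hw : HasDerivAt (fun z => inner ℂ (A (conj z)) (k z))
        (inner ℂ (deriv A (conj z0)) (k z0) + d) z0 := by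
      rw [hasDerivAt_iff_tendsto_slope] at hd hA' ⊢
      have hconj : Tendsto (fun z : ℂ => conj z) (𝓝[≠] z0) (𝓝[≠] (conj z0)) := by
        refine tendsto_nhdsWithin_iff.2 ⟨?_, ?_⟩
        · exact (Complex.continuous_conj.tendsto z0).mono_left nhdsWithin_le_nhds
        · filter_upwards [self_mem_nhdsWithin] with z hz hh
          exact hz (RingHom.injective _ hh)
      have h1 := hA'.comp hconj
      have hkc : Tendsto (fun z => inner ℂ (deriv A (conj z0)) (k z)) (𝓝[≠] z0)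
          (𝓝 (inner ℂ (deriv A (conj z0)) (k z0))) := by
        have := ((hk (deriv A (conj z0))).dc.differentiableOn.differentiableAt hn).continuousAt
        exact this.tendsto.mono_left nhdsWithin_le_nhds
      have hbb : ∀ᶠ z in 𝓝[≠] z0, ‖k z‖ ≤ B := by
        filter_upwards [nhdsWithin_le_nhds hn] with z hz
        exact hb z (closure_So ▸ subset_closure hz)
      have h2 := (wk h1 hkc hbb).add hd
      refine h2.congr' ?_
      filter_upwards [self_mem_nhdsWithin] with z hz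
      have hz : z ≠ z0 := hz
      have hz' : z - z0 ≠ 0 := sub_ne_zero.2 hz
      simp only [Function.comp_apply, slope_def_field, slope, vsub_eq_sub]
      rw [inner_smul_left, inner_sub_left, smul_eq_mul, smul_eq_mul, map_inv₀, map_sub,
        Complex.conj_conj, Complex.conj_conj]
      ring
    exact hw.differentiableAt.differentiableWithinAt
  · rw [closure_So]
    intro z0 hz0
    have h1 : Tendsto (fun z : ℂ => A (conj z)) (𝓝[Sc] z0) (𝓝 (A (conj z0))) :=
      (hAc.tendsto z0).mono_left nhdsWithin_le_nhds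
    have h2 : ContinuousOn (fun z => inner ℂ (A (conj z0)) (k z)) Sc :=
      closure_So ▸ (hk (A (conj z0))).dc.continuousOn
    exact wk h1 (h2 z0 hz0) (by filter_upwards [self_mem_nhdsWithin] with z hz using hb z hz)
  · exact (norm_inner_le_norm _ _).trans
      (mul_le_mul (hC z hz) (hb z hz) (norm_nonneg _) ((norm_nonneg _).trans (hC z hz)))

/-- the unitary group `W t = E.U (-t) V t` -/
def Wt (V : ℝ → H → H) (t : ℝ) (x : H) : H := E.U (-t) (V t x)

theorem Wt_Th (h : IsMod M ξ V J) (t : ℝ) (F : ℝ →ᵇ ℂ) (z : H) :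
    Wt E V t (E.Th F z) = E.Th F (Wt E V t z) := by
  unfold Wt
  rw [(V_nat E h t).2.1]
  show E.Th (expB (-t)) (E.Th F _) = E.Th F (E.Th (expB (-t)) _)
  rw [← E.gd_Th_mul, ← E.gd_Th_mul, mul_comm]

theorem Wt_UU (h : IsMod M ξ V J) (t : ℝ) (z : H) :
    Wt E V t (UU E h z) = UU E h (Wt E V t z) := by
  unfold Wt
  rw [← UU_V E h, UU_U E h]

theorem Wt_inner (h : IsMod M ξ V J) (t : ℝ) (x y : H) :
    inner ℂ (Wt E V t x) (Wt E V t y) = inner ℂ x y := by
  unfold Wt
  rw [E.inner_U_U, h.inn]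

theorem Wt_zero (h : IsMod M ξ V J) (x : H) : Wt E V 0 x = x := by
  unfold Wt
  rw [V_zero h, neg_zero]
  have := E.U_add 0 0
  have h1 : E.U 0 x = x := by
    have h2 := E.U_neg_apply 0 x
    rw [neg_zero] at h2
    have h3 := E.U_add_apply 0 0 x
    rw [add_zero] at h3
    rw [h3, h2]
  exact h1

theorem Wt_neg (h : IsMod M ξ V J) (t : ℝ) (x : H) : Wt E V t (Wt E V (-t) x) = x := by
  unfold Wt
  rw [neg_neg, (V_nat E h t).1, E.U_neg_apply, V_inv h]

theorem inner_Wt (h : IsMod M ξ V J) (t : ℝ) (x y : H) :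
    inner ℂ x (Wt E V (-t) y) = inner ℂ (Wt E V t x) y := by
  rw [← Wt_inner E h t x, Wt_neg E h]

/-- block: the continuation of `t ↦ ⟪y, W t κ⟫` for `κ = E.Th χ (X ξ)` -/
theorem exists_f (h : IsMod M ξ V J) {X : H →L[ℂ] H} (hX : X ∈ M) (χ : ℝ →ᵇ ℂ)
    (hχ : HasCompactSupport χ) (hr : ∀ x, conj (χ x) = χ x) (y : H) : ∃ f : ℂ → ℂ, Bd f ∧
    (∀ t : ℝ, f t = inner ℂ y (Wt E V t (E.Th χ (X ξ)))) ∧
    ∀ t : ℝ, f (t - I / 2) = inner ℂ y (Wt E V t (UU E h (E.Th χ (X ξ)))) := by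
  obtain ⟨k, B, k1, k2, k3, k4⟩ := exists_k h hX
  set A : ℂ → H := fun w => E.Th (ez χ hχ (I * w)) y with hA
  have hAd : Differentiable ℂ A := by
    have h1 : Differentiable ℂ fun w : ℂ => E.Th (ez χ hχ (I * w)) :=
      ((bblock E).ez_diff χ hχ).comp (differentiable_id.const_mul I)
    intro w
    exact (h1 w).clm_apply (differentiableAt_const y)
  have hAb : ∃ C, ∀ z ∈ Sc, ‖A (conj z)‖ ≤ C := by
    obtain ⟨R, hR0, hR⟩ := CB.ez_norm χ hχ
    refine ⟨Real.exp (1 / 2 * R) * ‖χ‖ * ‖y‖, fun z hz => ?_⟩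
    refine (ContinuousLinearMap.le_opNorm _ _).trans ?_
    refine mul_le_mul_of_nonneg_right ((E.norm_Th_le _).trans (hR _ (1 / 2) ?_)) (norm_nonneg _)
    have : (I * conj z).re = z.im := by simp
    rw [this, abs_le]
    exact ⟨by linarith [hz.1], by linarith [hz.2]⟩
  have hstar : ∀ (r : ℝ), star (ez χ hχ (r : ℂ)) = ez χ hχ (r : ℂ) := by
    intro r
    ext x
    show conj (Complex.exp (r * x) * χ x) = Complex.exp (r * x) * χ x
    rw [map_mul, hr, ← Complex.exp_conj, map_mul, Complex.conj_ofReal, Complex.conj_ofReal]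
  refine ⟨fun z => inner ℂ (A (conj z)) (k z), prodB k1 k2 hAd hAb, fun t => ?_, fun t => ?_⟩
  · have e1 : ez χ hχ (I * (t : ℂ)) = expB t * ez χ hχ ((0 : ℝ) : ℂ) := by
      ext x
      show Complex.exp (I * t * x) * χ x =
        Complex.exp (I * ((t * x : ℝ) : ℂ)) * (Complex.exp (((0 : ℝ) : ℂ) * x) * χ x)
      push_cast
      rw [zero_mul, Complex.exp_zero, one_mul, mul_assoc]
    have e2 : ez χ hχ ((0 : ℝ) : ℂ) = χ := by
      ext x
      show Complex.exp (((0 : ℝ) : ℂ) * x) * χ x = χ x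
      push_cast
      rw [zero_mul, Complex.exp_zero, one_mul]
    have e3 := hstar 0
    rw [e2] at e1 e3
    show inner ℂ (E.Th (ez χ hχ (I * conj (t : ℂ))) y) (k t) = _
    rw [Complex.conj_ofReal, e1, E.gd_Th_mul, k3]
    show inner ℂ (E.U t (E.Th χ y)) (V t (X ξ)) = _
    rw [← E.inner_U_U (-t), E.U_neg_apply]
    show inner ℂ (E.Th χ y) (Wt E V t (X ξ)) = _
    rw [E.gd_inner_Th, e3, Wt_Th E h]
  · set G : ℝ →ᵇ ℂ := ez χ hχ ((-(1 / 2) : ℝ) : ℂ) with hG
    have e1 : ez χ hχ (I * (conj ((t : ℂ) - I / 2))) = expB t * G := by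
      ext x
      show Complex.exp (I * conj ((t : ℂ) - I / 2) * x) * χ x =
        Complex.exp (I * ((t * x : ℝ) : ℂ)) * (Complex.exp (((-(1 / 2) : ℝ) : ℂ) * x) * χ x)
      rw [← mul_assoc, ← Complex.exp_add]
      congr 2
      rw [map_sub, Complex.conj_ofReal, map_div₀, Complex.conj_I]
      push_cast
      have : (starRingEnd ℂ) 2 = 2 := by
        rw [show (2 : ℂ) = ((2 : ℝ) : ℂ) by norm_num, Complex.conj_ofReal]
      rw [this]
      ring_nf
      rw [Complex.I_sq]
      ring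
    have e4 : E.Th G (E.J (star X ξ)) = E.Th χ (X ξ) := by
      refine E.kms X hX χ G fun x => ?_
      show χ x = (Real.exp (x / 2) : ℂ) * (Complex.exp (((-(1 / 2) : ℝ) : ℂ) * x) * χ x)
      rw [← mul_assoc, Complex.ofReal_exp, ← Complex.exp_add]
      have : ((x / 2 : ℝ) : ℂ) + ((-(1 / 2) : ℝ) : ℂ) * x = 0 := by push_cast; ring
      rw [this, Complex.exp_zero, one_mul]
    show inner ℂ (E.Th (ez χ hχ (I * conj ((t : ℂ) - I / 2))) y) (k (t - I / 2)) = _
    rw [e1, E.gd_Th_mul, k4]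
    show inner ℂ (E.U t (E.Th G y)) (V t (J (star X ξ))) = _
    rw [← E.inner_U_U (-t), E.U_neg_apply]
    show inner ℂ (E.Th G y) (Wt E V t (J (star X ξ))) = _
    rw [E.gd_inner_Th, hstar, ← Wt_Th E h, J_eq E h, ← UU_Th E h, e4]

/-- the vectors `E.Th χ (X ξ)` -/
def KK : Set H := {v | ∃ X ∈ M, ∃ χ : ℝ →ᵇ ℂ, ∃ hχ : HasCompactSupport χ,
  (∀ x, conj (χ x) = χ x) ∧ v = E.Th χ (X ξ)}

theorem dense_KK : Dense (KK E) := by
  have h1 : {ζ : H | ∃ a ∈ M, a ξ = ζ} ⊆ closure (KK E) := by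
    rintro _ ⟨X, hX, rfl⟩
    obtain ⟨χ, -, c2, c3, c4, c5⟩ := H234.exists_chi
    exact mem_closure_of_tendsto (H234.tendsto_chi E c3 c5 (X ξ))
      (Eventually.of_forall fun n => ⟨X, hX, χ n, c2 n, c4 n, rfl⟩)
  intro v
  exact closure_minimal h1 isClosed_closure (E.cyc v)

theorem key (h : IsMod M ξ V J) {κ κ' : H} (hκ : κ ∈ KK E) (hκ' : κ' ∈ KK E) (s : ℝ) :
    inner ℂ (UU E h κ') (Wt E V (-s) κ) = inner ℂ (UU E h κ') κ := by
  obtain ⟨X, hX, χ, hχ, hr, rfl⟩ := hκ
  obtain ⟨X', hX', χ', hχ', hr', rfl⟩ := hκ'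
  set κ := E.Th χ (X ξ)
  set κ' := E.Th χ' (X' ξ)
  obtain ⟨f, hf, f1, f2⟩ := exists_f E h hX χ hχ hr (UU E h κ')
  obtain ⟨g, hg, g1, g2⟩ := exists_f E h hX' χ' hχ' hr' κ
  obtain ⟨C, hC⟩ := hf.bd
  obtain ⟨C', hC'⟩ := hg.bd
  have hfc : ContinuousOn f Sc := closure_So ▸ hf.dc.continuousOn
  have hgc : ContinuousOn g Sc := closure_So ▸ hg.dc.continuousOn
  have mneg : ∀ z ∈ St, -z ∈ Sc := fun z hz => ⟨by simpa using hz.2, by simpa using hz.1⟩
  have mcj : ∀ z ∈ St, conj z ∈ Sc := fun z hz => ⟨by simpa using hz.2, by simpa using hz.1⟩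
  have mneg' : ∀ z ∈ StI, -z ∈ So := fun z hz => ⟨by simpa using hz.2, by simpa using hz.1⟩
  have mcj' : ∀ z ∈ StI, conj z ∈ So := fun z hz => ⟨by simpa using hz.2, by simpa using hz.1⟩
  have hA := ablock (fun z => f (-z)) (fun z => conj (g (conj z))) (max C C') ?_ ?_ ?_ ?_ ?_ ?_ ?_
    ?_ s
  · have e1 : f (-(s : ℂ)) = f (((-s : ℝ)) : ℂ) := by push_cast; rfl
    have e2 : f (-(0 : ℂ)) = f (((0 : ℝ)) : ℂ) := by push_cast; rw [neg_zero]
    simp only [e1, e2] at hA
    rw [f1, f1, Wt_zero E h] at hA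
    exact hA
  · exact hf.dc.differentiableOn.comp (differentiable_neg.differentiableOn) mneg'
  · intro z hz
    have hn : So ∈ 𝓝 (conj z) := isOpen_So.mem_nhds (mcj' z hz)
    have := (hg.dc.differentiableOn.differentiableAt hn).conj_conj
    rw [Complex.conj_conj] at this
    exact this.differentiableWithinAt
  · exact (hfc.comp continuous_neg.continuousOn mneg).mono fun z hz => hz.1
  · exact (Complex.continuous_conj.comp_continuousOn
      (hgc.comp Complex.continuous_conj.continuousOn mcj)).mono fun z hz => hz.1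
  · exact fun z hz => (hC _ (mneg z hz)).trans (le_max_left _ _)
  · intro z hz
    rw [RCLike.norm_conj]
    exact (hC' _ (mcj z hz)).trans (le_max_right _ _)
  · intro s _
    have e1 : -((s : ℂ) + I / 2) = ((-s : ℝ) : ℂ) - I / 2 := by push_cast; ring
    simp only [e1, Complex.conj_ofReal]
    rw [f2, g1, Wt_UU E h, LinearIsometryEquiv.inner_map_map, inner_Wt E h, inner_conj_symm]
  · intro s _
    have e1 : conj ((s : ℂ) + I / 2) = (s : ℂ) - I / 2 := by
      rw [map_add, Complex.conj_ofReal, map_div₀, Complex.conj_I]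
      have : (starRingEnd ℂ) 2 = 2 := by
        rw [show (2 : ℂ) = ((2 : ℝ) : ℂ) by norm_num, Complex.conj_ofReal]
      rw [this]; ring
    have e2 : -(s : ℂ) = ((-s : ℝ) : ℂ) := by push_cast; rfl
    simp only [e1, e2]
    rw [g2, f1, inner_Wt E h, inner_conj_symm]

end

end Vale.Agent.P352.BW.H234U

namespace Vale.Agent.P352.BW

open H234U
open Vale.Agent.P132 (ModData)

/-- **Uniqueness of the modular unitaries.** -/
theorem isMod_unique {H : Type*} [NormedAddCommGroup H] [InnerProductSpace ℂ H] [CompleteSpace H]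
    {M : VonNeumannAlgebra H} {ξ : H} {V : ℝ → H → H} {J : H → H} (E : ModData M ξ)
    (h : IsMod M ξ V J) : ∀ t x, V t x = E.U t x := by
  have h1 : ∀ κ ∈ KK E, ∀ s, Wt E V s κ = κ := by
    intro κ hκ s
    set w := (UU E h).symm (Wt E V s κ - κ) with hw
    have hcl : IsClosed {v : H | inner ℂ v w = 0} :=
      isClosed_eq (by fun_prop) continuous_const
    have hsub : KK E ⊆ {v : H | inner ℂ v w = 0} := by
      intro κ' hκ'
      show inner ℂ κ' w = 0
      have hk := key E h hκ hκ' (-s)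
      rw [neg_neg] at hk
      rw [← (UU E h).inner_map_map, hw, LinearIsometryEquiv.apply_symm_apply, inner_sub_right, hk,
        sub_self]
    have h2 : inner ℂ w w = 0 := by
      have := (dense_KK E).closure_eq ▸ hcl.closure_subset_iff.2 hsub
      exact this (Set.mem_univ w)
    have h3 : w = 0 := inner_self_eq_zero.1 h2
    rw [hw, LinearIsometryEquiv.map_eq_zero_iff] at h3
    exact sub_eq_zero.1 h3
  intro t x
  have hc : Continuous (V t) := (VW h t).continuous
  have hcl : IsClosed {v : H | V t v = E.U t v} := isClosed_eq hc (E.U t).continuous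
  have hsub : KK E ⊆ {v : H | V t v = E.U t v} := by
    intro κ hκ
    show V t κ = E.U t κ
    have h2 : E.U (-t) (V t κ) = κ := h1 κ hκ t
    rw [← E.U_apply_neg t (V t κ), h2]
  have := (dense_KK E).closure_eq ▸ hcl.closure_subset_iff.2 hsub
  exact this (Set.mem_univ x)

end Vale.Agent.P352.BW
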