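import Vale.Agent.P352.BW.L.Spec
import Vale.Agent.P352.BW.T.P
import Vale.Agent.P352.BW.T.Rs
import Vale.Agent.P352.H496.Br5

/-!
# P352 BW: the modular unitaries of the light cone, blocks P, R, B (helper234)
-/

set_option linter.all false

noncomputable section

open MeasureTheory SchwartzMap Filter Topology
open scoped SchwartzMap ComplexConjugate InnerProductSpace

namespace Vale.Agent.P352.BW.L

open Vale.Agent.P132 (ModData expB jconj)
open UniformSpace (Completion)
open GF H246 H496 H755 H15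

variable {D : Type*} [NormedAddCommGroup D] [InnerProductSpace ℂ D] {Q : Theory D}
  {A : (V → V) → D → D}

namespace P234

/-! ### the dilations -/

theorem lin_one (s : ℝ) : (fun m => sim s GF.one 0 (GF.one m)) = fun m => s • GF.one m := by
  funext m n
  simp [sim, GF.one, bas]

section

variable (hU : UStmt Q A)

include hU

theorem dV_coe (t : ℝ) (v : D) : dV Q t (v : Completion D) = (dD Q t v : D) :=
  hU.coe _ _ 0 v (Real.exp_pos _) isLor_one

theorem dV_lin (t : ℝ) : ∃ W : Completion D ≃ₗᵢ[ℂ] Completion D, ∀ z, W z = dV Q t z :=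
  hU.lin _ _ 0 (Real.exp_pos _) isLor_one

theorem dV_add (s t : ℝ) (z : Completion D) : dV Q s (dV Q t z) = dV Q (s + t) z := by
  have h := hU.mul (Real.exp (-(2 * Real.pi * s))) GF.one 0 (Real.exp (-(2 * Real.pi * t))) GF.one 0
    z (Real.exp_pos _) (Real.exp_pos _) isLor_one isLor_one
  have e0 : sim (Real.exp (-(2 * Real.pi * s))) GF.one 0 0 = (0 : V) := by
    funext n; simp [sim]
  rw [lin_one 1, ← Real.exp_add, e0] at h
  have e : -(2 * Real.pi * s) + -(2 * Real.pi * t) = -(2 * Real.pi * (s + t)) := by ring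
  rw [e] at h
  simp only [one_smul] at h
  exact h

theorem dV_zero (z : Completion D) : dV Q 0 z = z := by
  obtain ⟨W, hW⟩ := dV_lin hU 0
  apply W.injective
  rw [hW, hW, dV_add hU, add_zero]

theorem dV_right (t : ℝ) (z : Completion D) : dV Q t (dV Q (-t) z) = z := by
  rw [dV_add hU, add_neg_cancel, dV_zero hU]

theorem dV_left (t : ℝ) (z : Completion D) : dV Q (-t) (dV Q t z) = z := by
  rw [dV_add hU, neg_add_cancel, dV_zero hU]

theorem dV_vac (t : ℝ) : dV Q t (om Q) = om Q := hU.vac _ _ 0 (Real.exp_pos _) isLor_one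

end

/-- products: one field and its adjoint -/
theorem prod_one (R : Rep Q A) {M : VonNeumannAlgebra (Completion D)} (E : ModData M (om Q))
    (w : Wal Q M) {B B' : Fld D} {f : Fn} (hB : Q.fld B) (hf : In Fc f)
    (hadj : ∀ v w, inner ℂ (B f v) w = inner ℂ v (B' (GF.bar f) w)) (t : ℝ)
    (hS : E.U t ((B' (GF.bar f) Q.vac : D) : Completion D) =
      ((dD Q t (B' (GF.bar f) Q.vac) : D) : Completion D)) {v : D}
    (hv : E.U t (v : Completion D) = ((dD Q t v : D) : Completion D)) :
    E.U t ((B f v : D) : Completion D) = ((dD Q t (B f v) : D) : Completion D) := by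
  have hU : UStmt Q A := ublock R
  obtain ⟨W, hW⟩ := dV_lin hU t
  have hWs : ∀ z, W.symm z = dV Q (-t) z := by
    intro z
    apply W.injective
    rw [W.apply_symm_apply, hW, dV_right hU]
  set Wc : Completion D →L[ℂ] Completion D := W.toContinuousLinearEquiv.toContinuousLinearMap with hWc
  set Ws : Completion D →L[ℂ] Completion D := W.symm.toContinuousLinearEquiv.toContinuousLinearMap with hWsd
  have eWc : ∀ z, Wc z = W z := fun z => rfl
  have eWs : ∀ z, Ws z = W.symm z := fun z => rfl
  set Z : Completion D →L[ℂ] Completion D := Ws * E.U t with hZd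
  have eZ : ∀ z, Z z = W.symm (E.U t z) := fun z => rfl
  have hcom : ∀ Y ∈ M.commutant, Wc * Y * Ws ∈ M.commutant := by
    intro Y hY
    rw [VonNeumannAlgebra.mem_commutant_iff] at hY ⊢
    intro X hX
    obtain ⟨X1, hX1, h1⟩ := w.cov (-t) X hX
    refine ContinuousLinearMap.ext fun z => ?_
    show X (W (Y (W.symm z))) = W (Y (W.symm (X z)))
    have h2 : ∀ z, X (W z) = W (X1 z) := by
      intro z
      have := h1 (W z)
      rw [← hWs, W.symm_apply_apply, ← hWs] at this
      rw [this, W.apply_symm_apply]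
    have h3 : X1 (W.symm z) = W.symm (X z) := by
      apply W.injective
      rw [← h2, W.apply_symm_apply, W.apply_symm_apply]
    have h4 : X1 (Y (W.symm z)) = Y (X1 (W.symm z)) :=
      congrArg (fun T : Completion D →L[ℂ] Completion D => T (W.symm z)) (hY X1 hX1)
    rw [h2, h4, h3]
  have hZZ : ∀ z w', (⟪Z z, Z w'⟫_ℂ : ℂ) = ⟪z, w'⟫_ℂ := by
    intro z w'
    rw [eZ, eZ, W.symm.inner_map_map, E.inner_U_U]
  have hvac : Z ((Q.vac : D) : Completion D) = ((Q.vac : D) : Completion D) := by
    rw [eZ]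
    have h1 : E.U t ((Q.vac : D) : Completion D) = ((Q.vac : D) : Completion D) := E.U_xi t
    rw [h1]
    apply W.injective
    rw [W.apply_symm_apply, hW]
    exact (dV_vac hU t).symm
  have fix : ∀ u : D, E.U t (u : Completion D) = ((dD Q t u : D) : Completion D) ↔
      Z (u : Completion D) = (u : Completion D) := by
    intro u
    rw [eZ, ← dV_coe hU, ← hW]
    constructor
    · intro h
      rw [h, W.symm_apply_apply]
    · intro h
      rw [← h, W.apply_symm_apply, h]
  rw [fix]
  refine prod_fix M Q.vac Z hZZ ?_ hvac E.cyc' (B f) (B' (GF.bar f)) hadj (w.aff B f hB hf) ?_ v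
    ((fix v).1 hv)
  · intro Y hY
    refine ⟨E.sg (-t) (Wc * Y * Ws), E.sg_mem_commutant (hcom Y hY) (-t), fun z => ?_⟩
    rw [eZ, E.sg_apply, neg_neg, E.U_apply_neg]
    show W.symm (W (Y (W.symm (E.U t z)))) = _
    rw [W.symm_apply_apply, eZ]
  · rw [← fix]
    exact hS

/-- the forward cone contains large cubes -/
theorem big_fc : Big (MW Fc) := by
  intro r
  refine ⟨WithLp.toLp 2 fun n => if n = 0 then 3 * |r| + 1 else 0, fun x hx => ?_⟩
  have h0 := hx 0
  have h1 := hx 1
  have h2 := hx 2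
  have h3 := hx 3
  simp only [Fin.isValue, if_true, one_ne_zero, if_false, sub_zero, Fin.reduceEq] at h0 h1 h2 h3
  have hr : r ≤ |r| := le_abs_self r
  have hr0 : 0 ≤ |r| := abs_nonneg r
  have g0 : 2 * |r| + 1 ≤ x 0 := by
    have := (abs_le.1 h0).1
    linarith
  have g1 : x 1 ^ 2 ≤ |r| ^ 2 := by
    rw [← sq_abs (x 1)]
    exact pow_le_pow_left₀ (abs_nonneg _) (h1.trans hr) 2
  have g2 : x 2 ^ 2 ≤ |r| ^ 2 := by
    rw [← sq_abs (x 2)]
    exact pow_le_pow_left₀ (abs_nonneg _) (h2.trans hr) 2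
  have g3 : x 3 ^ 2 ≤ |r| ^ 2 := by
    rw [← sq_abs (x 3)]
    exact pow_le_pow_left₀ (abs_nonneg _) (h3.trans hr) 2
  have g4 : (2 * |r| + 1) ^ 2 ≤ x 0 ^ 2 := pow_le_pow_left₀ (by positivity) g0 2
  have h5 : 0 < P352.mdot x x := by
    simp only [P352.mdot]
    nlinarith only [g1, g2, g3, g4, hr0]
  rw [mdot_eq] at h5
  exact ⟨h5, show 0 < x 0 by linarith⟩

/-- Reeh-Schlieder for a class of fields and the forward cone -/
theorem rs_cls {F : Fld D → Prop} (hF : ∀ B, F B → Q.fld B)
    (hadj : ∀ B, F B → ∃ B', F B' ∧ ∀ f v w, GF.IsTest f →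
      inner ℂ (B f v) w = inner ℂ v (B' (GF.bar f) w))
    (hcyc : ∀ S : Submodule ℂ D, Q.vac ∈ S →
      (∀ B f v, F B → GF.IsTest f → v ∈ S → B f v ∈ S) → Dense (S : Set D))
    (S : Submodule ℂ D) (hvac : Q.vac ∈ S)
    (hS : ∀ B f v, F B → In Fc f → v ∈ S → B f v ∈ S) : Dense (S : Set D) := by
  have hd : Dense (PS (subT Q F hF hadj hcyc) (MW Fc) : Set D) := dense_big big_fc
  refine hd.mono fun v hv => ?_
  have hv' : PW (subT Q F hF hadj hcyc) (MW Fc) v := hv
  induction hv' with
  | vac => exact hvac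
  | add _ _ h1 h2 => exact S.add_mem (h1 ‹_›) (h2 ‹_›)
  | smul c _ h1 => exact S.smul_mem c (h1 ‹_›)
  | @fld B g v hB hg hw ih => exact hS B (fl g) v hB (In_fl.2 hg) (ih hw)

/-- the modular unitaries are the dilations if they are so on the one-field vectors of a
generating class of fields -/
theorem mod_cls (R : Rep Q A) {M : VonNeumannAlgebra (Completion D)} (E : ModData M (om Q))
    (w : Wal Q M) {F : Fld D → Prop} (hF : ∀ B, F B → Q.fld B)
    (hadj : ∀ B, F B → ∃ B', F B' ∧ ∀ f v w, GF.IsTest f →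
      inner ℂ (B f v) w = inner ℂ v (B' (GF.bar f) w))
    (hcyc : ∀ S : Submodule ℂ D, Q.vac ∈ S →
      (∀ B f v, F B → GF.IsTest f → v ∈ S → B f v ∈ S) → Dense (S : Set D))
    (hib : ∀ f, In Fc f → In Fc (GF.bar f))
    (hS : ∀ B f t, F B → In Fc f → E.U t ((B f Q.vac : D) : Completion D) =
      ((dD Q t (B f Q.vac) : D) : Completion D)) (t : ℝ) (z : Completion D) :
    E.U t z = dV Q t z := by
  have hU : UStmt Q A := ublock R
  obtain ⟨W, hW⟩ := dV_lin hU t
  have hcn : Continuous (dV Q t) := (continuous_congr hW).1 W.continuous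
  set S : Submodule ℂ D :=
    { carrier := {v | E.U t (v : Completion D) = W (v : Completion D)}
      add_mem' := fun {x y} hx hy => by
        show E.U t (((x + y : D)) : Completion D) = W (((x + y : D)) : Completion D)
        rw [Completion.coe_add, map_add, map_add, hx, hy]
      zero_mem' := by
        show E.U t (((0 : D)) : Completion D) = W (((0 : D)) : Completion D)
        rw [Completion.coe_zero, map_zero, map_zero]
      smul_mem' := fun c x hx => by
        show E.U t (((c • x : D)) : Completion D) = W (((c • x : D)) : Completion D)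
        rw [Completion.coe_smul, map_smul, map_smul, hx] } with hSd
  have hmem : ∀ v : D, v ∈ S ↔ E.U t (v : Completion D) = ((dD Q t v : D) : Completion D) := by
    intro v
    rw [← dV_coe hU, ← hW]
    rfl
  have hd : Dense (S : Set D) := by
    refine rs_cls hF hadj hcyc S ?_ ?_
    · rw [hmem, ← dV_coe hU]
      have h1 : E.U t ((Q.vac : D) : Completion D) = ((Q.vac : D) : Completion D) := E.U_xi t
      rw [h1]
      exact (dV_vac hU t).symm
    · intro B f v hB hf hv
      rw [hmem] at hv ⊢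
      obtain ⟨B', hB', h⟩ := hadj B hB
      exact prod_one R E w (hF B hB) hf (fun v w => h f v w hf.1) t
        (hS B' _ t hB' (hib f hf)) hv
  have hD : ∀ v : D, E.U t (v : Completion D) = dV Q t (v : Completion D) := by
    intro v
    have hc : IsClosed {v : D | E.U t (v : Completion D) = dV Q t (v : Completion D)} :=
      isClosed_eq ((E.U t).continuous.comp (Completion.continuous_coe D))
        (hcn.comp (Completion.continuous_coe D))
    refine closure_minimal (fun v hv => ?_) hc (hd v)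
    show E.U t (v : Completion D) = dV Q t (v : Completion D)
    rw [← hW]
    exact hv
  exact Completion.induction_on z (isClosed_eq (E.U t).continuous hcn) hD

/-- block P -/
theorem pL (hT : T1Stmt Q A) (hS : SStmt Q A) : PStmt Q A := by
  intro R M E w d B f v hB hf hv t
  obtain ⟨B', hB', hadj⟩ := (hT R).adj d B hB
  exact prod_one R E w hB.fld hf (fun v w => hadj f v w hf.1) t
    (hS R M E w d B' _ t hB' ((hT R).ib _ f hf)) (hv t)

/-- block R -/
theorem rL (hT : T1Stmt Q A) : RStmt Q A := by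
  intro R hG S hvac hS
  refine rs_cls (F := fun B => ∃ d, Fz Q d B) (fun B ⟨d, h⟩ => h.fld) ?_ ?_ S hvac ?_
  · rintro B ⟨d, h⟩
    obtain ⟨B', hB', hadj⟩ := (hT R).adj d B h
    exact ⟨B', ⟨d, hB'⟩, hadj⟩
  · exact fun S hv h => hG S hv fun d B f v hB hf hvS => h B f v ⟨d, hB⟩ hf hvS
  · rintro B f v ⟨d, h⟩ hf hv
    exact hS d B f v h hf hv

/-- block B -/
theorem bL (hT : T1Stmt Q A) (hS : SStmt Q A) : BStmt Q A := by
  intro R hG M E w t z
  refine mod_cls R E w (F := fun B => ∃ d, Fz Q d B) (fun B ⟨d, h⟩ => h.fld) ?_ ?_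
    (fun f hf => (hT R).ib _ f hf) ?_ t z
  · rintro B ⟨d, h⟩
    obtain ⟨B', hB', hadj⟩ := (hT R).adj d B h
    exact ⟨B', ⟨d, hB'⟩, hadj⟩
  · exact fun S hv h => hG S hv fun d B f v hB hf hvS => h B f v ⟨d, hB⟩ hf hvS
  · rintro B f t ⟨d, h⟩ hf
    exact hS R M E w d B f t h hf

end P234

end Vale.Agent.P352.BW.L

end
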