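import Vale.Agent.P352.BW.T.O
import Vale.Agent.P352.BW.L.Spec

/-!
# P352 BW, block O for dilations (helper234): analytic continuation of the dilations on one-field
vectors, real scaling dimension, both light cones
-/

set_option linter.all false

noncomputable section

open MeasureTheory SchwartzMap Complex Filter Topology
open scoped SchwartzMap ComplexConjugate ENNReal

namespace Vale.Agent.P352.BW.H234O

open GF (Ix V Fn Fld Theory bas sim o)
open H246 H496 H746 H755 H15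
open O649 (Nice)
open UniformSpace (Completion)

/-- the momentum `exp (-2π σ z) p` -/
def cd (σ : ℝ) (z : ℂ) (p : Mink) : Fin 4 → ℂ := fun j => exp (-(2 * Real.pi * (σ * z))) * (p j : ℂ)

lemma cdot_cd (σ : ℝ) (z : ℂ) (p x : Mink) :
    cdot (cd σ z p) x = exp (-(2 * Real.pi * (σ * z))) * (P352.mdot p x : ℂ) := by
  simp only [cdot, cd, P352.mdot]
  push_cast
  ring

variable {σ : ℝ} (hσ : σ = 1 ∨ σ = -1) {W : Set Mink}
  (hW : ∀ x ∈ W, ∀ p ∈ fwdCone, 0 ≤ σ * P352.mdot p x)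

include hσ in
lemma nrm_cd (z : ℂ) : ‖exp (-(2 * Real.pi * (σ * z)))‖ ≤ Real.exp (2 * Real.pi * |z.re|) := by
  rcases hσ with h | h
  · rw [h, ofReal_one, one_mul]
    exact T.norm_exp_neg_le z
  · rw [h, ofReal_neg, ofReal_one, neg_one_mul, mul_neg, neg_neg]
    exact T.norm_exp_le z

include hσ in
lemma nrm_cd' (z : ℂ) : 1 ≤ Real.exp (2 * Real.pi * |z.re|) * ‖exp (-(2 * Real.pi * (σ * z)))‖ := by
  have h : σ = 1 ∨ σ = -1 := hσ
  have h1 : ‖exp (2 * Real.pi * (σ * z))‖ ≤ Real.exp (2 * Real.pi * |z.re|) := by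
    rcases hσ with h | h
    · rw [h, ofReal_one, one_mul]
      exact T.norm_exp_le z
    · rw [h, ofReal_neg, ofReal_one, neg_one_mul, mul_neg]
      exact T.norm_exp_neg_le z
  have h2 : ‖exp (2 * Real.pi * (σ * z))‖ * ‖exp (-(2 * Real.pi * (σ * z)))‖ = 1 := by
    rw [← norm_mul, ← Complex.exp_add, add_neg_cancel, Complex.exp_zero, norm_one]
  rw [← h2]
  exact mul_le_mul_of_nonneg_right h1 (norm_nonneg _)

include hσ hW in
lemma goodK_cd {p : Mink} (hp : p ∈ fwdCone) {z : ℂ} (hz : z ∈ T.St) : goodK W (cd σ z p) := by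
  intro x hx
  have h1 := hW x hx p hp
  have hs := T.sin_nonpos hz
  rw [cdot_cd, mul_im, ofReal_im, mul_zero, zero_add, ofReal_re]
  rcases hσ with h | h
  · rw [h, ofReal_one, one_mul, T.im_exp_neg]
    rw [h, one_mul] at h1
    exact mul_nonneg (neg_nonneg.2 (mul_nonpos_of_nonneg_of_nonpos (Real.exp_pos _).le hs)) h1
  · rw [h, ofReal_neg, ofReal_one, neg_one_mul, mul_neg, neg_neg, T.im_exp]
    rw [h, neg_one_mul] at h1
    exact mul_nonneg_of_nonpos_of_nonpos
      (mul_nonpos_of_nonneg_of_nonpos (Real.exp_pos _).le hs) (neg_nonneg.1 h1)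

include hσ in
lemma norm_le_cd (z : ℂ) (p : Mink) :
    ‖p‖ ≤ Real.exp (2 * Real.pi * |z.re|) * ∑ j, ‖cd σ z p j‖ := by
  have hp : ‖p‖ ≤ ∑ j, |p j| := by
    rw [Fin.sum_univ_four]
    apply le_of_sq_le_sq _ (by positivity)
    rw [norm_sq_mink]
    nlinarith only [abs_nonneg (p 0), abs_nonneg (p 1), abs_nonneg (p 2), abs_nonneg (p 3),
      sq_abs (p 0), sq_abs (p 1), sq_abs (p 2), sq_abs (p 3),
      mul_nonneg (abs_nonneg (p 0)) (abs_nonneg (p 1)),
      mul_nonneg (abs_nonneg (p 0)) (abs_nonneg (p 2)),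
      mul_nonneg (abs_nonneg (p 0)) (abs_nonneg (p 3)),
      mul_nonneg (abs_nonneg (p 1)) (abs_nonneg (p 2)),
      mul_nonneg (abs_nonneg (p 1)) (abs_nonneg (p 3)),
      mul_nonneg (abs_nonneg (p 2)) (abs_nonneg (p 3))]
  refine hp.trans ?_
  rw [Finset.mul_sum]
  refine Finset.sum_le_sum fun j _ => ?_
  have h := nrm_cd' hσ z
  unfold cd
  rw [norm_mul, norm_real, Real.norm_eq_abs, ← mul_assoc]
  exact le_mul_of_one_le_left (abs_nonneg _) h

include hσ hW in
/-- Rapid decay. -/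
theorem decay_cd (f : 𝓢(Mink, ℂ)) (hf : P352.IsTest W f) (N : ℕ) :
    ∃ C r : ℝ, 0 ≤ C ∧ 0 ≤ r ∧ ∀ p ∈ fwdCone, ∀ z ∈ T.St,
      ‖cft f (cd σ z p)‖ ≤ C * Real.exp (r * |z.re|) * wt N p := by
  obtain ⟨C0, hC0, h0⟩ := exists_decay_coord f hf 0
  obtain ⟨C1, hC1, h1⟩ := exists_decay_coord f hf N
  refine ⟨2 ^ N * (C0 + 4 ^ N * C1), 2 * Real.pi * N, by positivity, by positivity,
    fun p hp z hz => ?_⟩
  have hg := goodK_cd hσ hW hp hz
  have hKp := norm_le_cd hσ z p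
  set q := cd σ z p with hq
  set E := Real.exp (2 * Real.pi * |z.re|) with hE
  have hE1 : 1 ≤ E := Real.one_le_exp (by positivity)
  have hEN : Real.exp (2 * Real.pi * N * |z.re|) = E ^ N := by
    rw [hE, ← Real.exp_nat_mul]
    congr 1
    ring
  have hEN1 : 1 ≤ E ^ N := one_le_pow₀ hE1
  rw [hEN]
  set c := ‖cft f q‖ with hc
  have hc0 : 0 ≤ c := norm_nonneg _
  have e0 : c ≤ C0 := by simpa using h0 q hg 0
  obtain ⟨j, -, hj⟩ := Finset.exists_max_image (Finset.univ : Finset (Fin 4)) (fun j => ‖q j‖)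
    ⟨0, Finset.mem_univ 0⟩
  have hS : ∑ j, ‖q j‖ ≤ 4 * ‖q j‖ := by
    rw [Fin.sum_univ_four]
    linarith only [hj 0 (Finset.mem_univ _), hj 1 (Finset.mem_univ _), hj 2 (Finset.mem_univ _),
      hj 3 (Finset.mem_univ _)]
  have e1 := h1 q hg j
  have hpn : ‖p‖ ≤ E * (4 * ‖q j‖) :=
    hKp.trans (mul_le_mul_of_nonneg_left hS (by positivity))
  have key : (1 + ‖p‖) ^ N * c ≤ 2 ^ N * (C0 + 4 ^ N * C1) * E ^ N := by
    by_cases hq1 : ‖p‖ ≤ 1
    · calc (1 + ‖p‖) ^ N * c ≤ 2 ^ N * C0 := by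
            have : 1 + ‖p‖ ≤ 2 := by linarith only [hq1]
            gcongr
        _ ≤ 2 ^ N * (C0 + 4 ^ N * C1) * 1 := by
            rw [mul_one]
            have : 0 ≤ 4 ^ N * C1 := by positivity
            gcongr
            linarith only [this]
        _ ≤ _ := by
            have : 0 ≤ 4 ^ N * C1 := by positivity
            gcongr
    · push Not at hq1
      calc (1 + ‖p‖) ^ N * c ≤ (2 * (E * (4 * ‖q j‖))) ^ N * c := by
            gcongr
            linarith only [hpn, hq1]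
        _ = 2 ^ N * (4 ^ N * (‖q j‖ ^ N * c)) * E ^ N := by
            rw [mul_pow, mul_pow, mul_pow]; ring
        _ ≤ 2 ^ N * (4 ^ N * C1) * E ^ N := by gcongr
        _ ≤ _ := by
            gcongr
            linarith only [hC0]
  rw [wt, ← div_eq_mul_inv, le_div_iff₀ (by positivity), mul_comm]
  exact key

theorem continuous_cd (σ : ℝ) : Continuous fun q : ℂ × Mink => cd σ q.1 q.2 := by
  have h : ∀ j : Fin 4, Continuous fun q : ℂ × Mink => ((q.2 j : ℝ) : ℂ) := fun j =>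
    continuous_ofReal.comp ((continuous_coord j).comp continuous_snd)
  refine continuous_pi fun j => ?_
  unfold cd
  have h3 := h j
  fun_prop

theorem continuous_cft_cd_right (σ : ℝ) (f : 𝓢(Mink, ℂ)) (hf : HasCompactSupport f) (z : ℂ) :
    Continuous fun p : Mink => cft f (cd σ z p) := by
  have h1 : Continuous fun p : Mink => ((z, p) : ℂ × Mink) := by fun_prop
  exact (continuous_cft f hf).comp ((continuous_cd σ).comp h1)

/-- Entire in `z`. -/
theorem differentiable_cft_cd (σ : ℝ) (f : 𝓢(Mink, ℂ)) (hf : HasCompactSupport f) (p : Mink) :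
    Differentiable ℂ fun z => cft f (cd σ z p) := by
  intro z₀
  have hcont : Continuous fun q : ℂ × Mink => exp (I * cdot (cd σ q.1 p) q.2) := by
    apply continuous_exp.comp
    apply continuous_const.mul
    have h1 : Continuous fun q : ℂ × Mink => cd σ q.1 p :=
      (continuous_cd σ).comp (continuous_fst.prodMk continuous_const)
    have h2 : Continuous fun q : ℂ × Mink => (cd σ q.1 p, q.2) := h1.prodMk continuous_snd
    exact Continuous.comp (f := fun q : ℂ × Mink => (cd σ q.1 p, q.2))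
      (g := fun r : (Fin 4 → ℂ) × Mink => cdot r.1 r.2) continuous_cdot_uncurry h2
  obtain ⟨C, hC⟩ := ((isCompact_closedBall z₀ 1).prod hf).bddAbove_image
    (f := fun q : ℂ × Mink => ‖exp (I * cdot (cd σ q.1 p) q.2)‖) hcont.norm.continuousOn
  have hC' : ∀ z ∈ Metric.closedBall z₀ 1, ∀ x ∈ tsupport f,
      ‖exp (I * cdot (cd σ z p) x)‖ ≤ C := by
    intro z hz x hx
    exact hC ⟨(z, x), ⟨hz, hx⟩, rfl⟩
  refine differentiableAt_integral (U := Metric.ball z₀ 1) Metric.isOpen_ball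
    (F := fun z x => exp (I * cdot (cd σ z p) x) * f x) (bound := fun x => C * ‖f x‖)
    ?_ ?_ ?_ ?_ (Metric.mem_ball_self one_pos)
  · intro z _
    exact (integrable_cexp_mul _ f hf).aestronglyMeasurable
  · refine Eventually.of_forall fun x => ?_
    have : Differentiable ℂ fun z : ℂ => exp (I * cdot (cd σ z p) x) * f x := by
      simp only [cdot_cd]
      fun_prop
    exact this.differentiableOn
  · refine Eventually.of_forall fun x z hz => ?_
    rw [norm_mul]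
    by_cases hx : x ∈ tsupport f
    · gcongr
      exact hC' z (Metric.ball_subset_closedBall hz) x hx
    · simp [image_eq_zero_of_notMem_tsupport hx]
  · exact f.integrable.norm.const_mul C

variable {μ : Measure Mink}

include hσ hW in
theorem o2 (temp : μ.HasTemperateGrowth) (cone : ∀ᵐ p ∂μ, p ∈ fwdCone) (f : 𝓢(Mink, ℂ))
    (hf : P352.IsTest W f) {φ : Mink → ℂ} (hφ : MemLp φ 2 μ) :
    ContinuousOn (fun z => ∫ p, cft f (cd σ z p) * φ p ∂μ) T.St ∧
    DifferentiableOn ℂ (fun z => ∫ p, cft f (cd σ z p) * φ p ∂μ) T.StI ∧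
    ∃ C r : ℝ, 0 ≤ C ∧ 0 ≤ r ∧ ∀ z ∈ T.St, ‖∫ p, cft f (cd σ z p) * φ p ∂μ‖ ≤
      C * Real.exp (r * |z.re|) := by
  obtain ⟨N, hN⟩ := exists_wt_memLp temp
  obtain ⟨C, r, hC, hr, h⟩ := decay_cd hσ hW f hf N
  have hI : Integrable (fun p => wt N p * ‖φ p‖) μ := memLp_wt_mul hN hφ
  have hae : ∀ z, AEStronglyMeasurable (fun p => cft f (cd σ z p) * φ p) μ := fun z =>
    (continuous_cft_cd_right σ f hf.1 z).aestronglyMeasurable.mul hφ.aestronglyMeasurable
  have hbd : ∀ᵐ p ∂μ, ∀ z ∈ T.St, ‖cft f (cd σ z p) * φ p‖ ≤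
      C * Real.exp (r * |z.re|) * (wt N p * ‖φ p‖) := by
    filter_upwards [cone] with p hp z hz
    rw [norm_mul]
    calc _ ≤ (C * Real.exp (r * |z.re|) * wt N p) * ‖φ p‖ := by
          gcongr
          exact h p hp z hz
      _ = _ := by ring
  have hloc : ∀ m : ℝ, ∀ᵐ p ∂μ, ∀ z ∈ T.St, |z.re| ≤ m → ‖cft f (cd σ z p) * φ p‖ ≤
      C * Real.exp (r * m) * (wt N p * ‖φ p‖) := by
    intro m
    filter_upwards [hbd] with p hp z hz hT
    refine (hp z hz).trans ?_
    have := wt_nonneg N p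
    gcongr
  refine ⟨?_, ?_, ?_⟩
  · intro z₀ hz₀
    apply continuousWithinAt_of_dominated
      (bound := fun p => C * Real.exp (r * (|z₀.re| + 1)) * (wt N p * ‖φ p‖))
    · exact Eventually.of_forall fun z => hae z
    · have hmem : {z : ℂ | |z.re| < |z₀.re| + 1} ∈ 𝓝 z₀ := by
        apply IsOpen.mem_nhds
        · exact isOpen_lt (by fun_prop) continuous_const
        · simp only [Set.mem_ofPred_eq, lt_add_iff_pos_right, zero_lt_one]
      filter_upwards [mem_nhdsWithin_of_mem_nhds hmem, self_mem_nhdsWithin] with z hz1 hz2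
      filter_upwards [hloc (|z₀.re| + 1)] with p hp using hp z hz2 (le_of_lt hz1)
    · exact hI.const_mul _
    · refine Eventually.of_forall fun p => ?_
      apply Continuous.continuousWithinAt
      exact ((differentiable_cft_cd σ f hf.1 p).continuous).mul continuous_const
  · intro z₀ hz₀
    apply DifferentiableAt.differentiableWithinAt
    set U : Set ℂ := {z : ℂ | |z.re| < |z₀.re| + 1} ∩ T.StI with hU
    have hUo : IsOpen U := by
      apply IsOpen.inter
      · exact isOpen_lt (by fun_prop) continuous_const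
      · apply IsOpen.inter
        · exact isOpen_lt continuous_const continuous_im
        · exact isOpen_lt continuous_im continuous_const
    refine differentiableAt_integral hUo (F := fun z p => cft f (cd σ z p) * φ p)
      (bound := fun p => C * Real.exp (r * (|z₀.re| + 1)) * (wt N p * ‖φ p‖)) ?_ ?_ ?_
      (hI.const_mul _) ⟨by simp only [Set.mem_ofPred_eq, lt_add_iff_pos_right, zero_lt_one], hz₀⟩
    · exact fun z _ => hae z
    · refine Eventually.of_forall fun p => ?_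
      exact ((differentiable_cft_cd σ f hf.1 p).mul_const _).differentiableOn
    · filter_upwards [hloc (|z₀.re| + 1)] with p hp z hz
      exact hp z ⟨hz.2.1.le, hz.2.2.le⟩ (le_of_lt hz.1)
  · refine ⟨C * ∫ p, wt N p * ‖φ p‖ ∂μ, r, mul_nonneg hC (integral_nonneg fun p =>
      mul_nonneg (wt_nonneg N p) (norm_nonneg _)), hr, fun z hz => ?_⟩
    have h1 : ‖∫ p, cft f (cd σ z p) * φ p ∂μ‖ ≤
        ∫ p, C * Real.exp (r * |z.re|) * (wt N p * ‖φ p‖) ∂μ := by
      refine norm_integral_le_of_norm_le (hI.const_mul _) ?_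
      filter_upwards [hbd] with p hp using hp z hz
    rw [integral_const_mul] at h1
    refine h1.trans (le_of_eq ?_)
    ring

/-! ### values on the two lines -/

/-- the scale -/
def sc (σ t : ℝ) : ℝ := Real.exp (-(2 * Real.pi * (σ * t)))

lemma sc_pos (σ t : ℝ) : 0 < sc σ t := Real.exp_pos _

lemma exp_real (σ t : ℝ) : exp (-(2 * Real.pi * (σ * (t : ℂ)))) = ((sc σ t : ℝ) : ℂ) := by
  unfold sc
  push_cast
  rfl

include hσ in
lemma exp_half (t : ℝ) : exp (-(2 * Real.pi * (σ * ((t : ℂ) - I / 2)))) =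
    -((sc σ t : ℝ) : ℂ) := by
  have e : -(2 * (Real.pi : ℂ) * (σ * ((t : ℂ) - I / 2))) =
      -(2 * Real.pi * (σ * (t : ℂ))) + σ * (Real.pi * I) := by ring
  rw [e, Complex.exp_add, exp_real]
  have h1 : exp (σ * (Real.pi * I)) = -1 := by
    rcases hσ with h | h
    · rw [h, ofReal_one, one_mul, exp_pi_mul_I]
    · rw [h, ofReal_neg, ofReal_one, neg_one_mul, exp_neg, exp_pi_mul_I]
      norm_num
  rw [h1]
  ring

lemma cd_real (σ t : ℝ) (p : Mink) : cd σ (t : ℂ) p = fun j => (((sc σ t • p) j : ℝ) : ℂ) := by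
  funext j
  unfold cd
  rw [exp_real]
  simp

include hσ in
lemma cd_half (t : ℝ) (p : Mink) : cd σ ((t : ℂ) - I / 2) p =
    fun j => (((((-sc σ t) • p) j : ℝ)) : ℂ) := by
  funext j
  unfold cd
  rw [exp_half hσ]
  simp

lemma mft_sc {s : ℝ} (hs : s ≠ 0) (g : 𝓢(Mink, ℂ)) (p : Mink) :
    mft (scaleS s⁻¹ (inv_ne_zero hs) g) p = ((s ^ 4 : ℝ) : ℂ) * mft g (s • p) := by
  unfold mft
  have h := Measure.integral_comp_smul (μ := (volume : Measure Mink))
    (fun x => exp (I * (P352.mdot (s • p) x : ℂ)) * g x) s⁻¹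
  have hd : Module.finrank ℝ Mink = 4 := by simp
  have h4 : |((s⁻¹) ^ 4)⁻¹| = s ^ 4 := by
    rw [inv_pow, inv_inv, abs_of_nonneg (by positivity)]
  rw [hd, h4, real_smul] at h
  rw [← h]
  congr 1
  ext x
  rw [scaleS_apply, mdot_smul_right, mdot_smul_left]
  congr 4
  field_simp

/-! ### the momentum space functions -/

section mom

open Classical in
/-- the momentum space function `p ↦ F^(exp (-2π σ z) p)` -/
def gz (σ : ℝ) (μ : Measure Mink) (F : 𝓢(Mink, ℂ)) (z : ℂ) : Lp ℂ 2 μ :=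
  if h : MemLp (fun p => cft F (cd σ z p)) 2 μ then h.toLp _ else 0

include hσ hW

lemma memLp_cd (temp : μ.HasTemperateGrowth) (cone : ∀ᵐ p ∂μ, p ∈ fwdCone) (F : 𝓢(Mink, ℂ))
    (hF : P352.IsTest W F) {z : ℂ} (hz : z ∈ T.St) :
    MemLp (fun p => cft F (cd σ z p)) 2 μ := by
  obtain ⟨N, hN⟩ := exists_wt_memLp temp
  obtain ⟨C, r, hC, hr, h⟩ := decay_cd hσ hW F hF N
  refine MemLp.of_le_mul (c := C * Real.exp (r * |z.re|)) hN
    (continuous_cft_cd_right σ F hF.1 z).aestronglyMeasurable ?_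
  filter_upwards [cone] with p hp
  rw [Real.norm_of_nonneg (wt_nonneg N p)]
  exact h p hp z hz

lemma coe_gz (temp : μ.HasTemperateGrowth) (cone : ∀ᵐ p ∂μ, p ∈ fwdCone) (F : 𝓢(Mink, ℂ))
    (hF : P352.IsTest W F) {z : ℂ} (hz : z ∈ T.St) :
    gz σ μ F z =ᵐ[μ] fun p => cft F (cd σ z p) := by
  have h := memLp_cd hσ hW temp cone F hF hz
  rw [gz, dif_pos h]
  exact h.coeFn_toLp

lemma inner_gz (temp : μ.HasTemperateGrowth) (cone : ∀ᵐ p ∂μ, p ∈ fwdCone) (F : 𝓢(Mink, ℂ))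
    (hF : P352.IsTest W F) {z : ℂ} (hz : z ∈ T.St) (y : Lp ℂ 2 μ) :
    inner ℂ y (gz σ μ F z) = ∫ p, cft F (cd σ z p) * conj (y p) ∂μ := by
  rw [L2.inner_def]
  apply integral_congr_ae
  filter_upwards [coe_gz hσ hW temp cone F hF hz] with p hp
  rw [hp, RCLike.inner_apply]

lemma nice_gz (temp : μ.HasTemperateGrowth) (cone : ∀ᵐ p ∂μ, p ∈ fwdCone) (F : 𝓢(Mink, ℂ))
    (hF : P352.IsTest W F) (y : Lp ℂ 2 μ) :
    Nice fun z => inner ℂ y (gz σ μ F z) := by
  obtain ⟨h1, h2, C, r, hC, hr, h3⟩ := o2 hσ hW temp cone F hF (Lp.memLp y).star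
  have he : ∀ z ∈ T.St, inner ℂ y (gz σ μ F z) =
      ∫ p, cft F (cd σ z p) * (star (y : Mink → ℂ)) p ∂μ := fun z hz => by
    rw [inner_gz hσ hW temp cone F hF hz]
    rfl
  refine ⟨h1.congr he, h2.congr fun z hz => he z ⟨hz.1.le, hz.2.le⟩, C, r, hC, hr,
    fun z hz hz' => ?_⟩
  rw [he z ⟨hz, hz'⟩]
  exact h3 z ⟨hz, hz'⟩

lemma gz_real (temp : μ.HasTemperateGrowth) (cone : ∀ᵐ p ∂μ, p ∈ fwdCone) (F : 𝓢(Mink, ℂ))
    (hF : P352.IsTest W F) (t : ℝ) :
    (((sc σ t) ^ 4 : ℝ) : ℂ) • gz σ μ F t =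
      toL temp (scaleS (sc σ t)⁻¹ (inv_ne_zero (sc_pos σ t).ne') F) := by
  apply Lp.ext
  have hz : (t : ℂ) ∈ T.St := by constructor <;> simp
  filter_upwards [coe_gz hσ hW temp cone F hF hz,
    coeFn_toL temp (scaleS (sc σ t)⁻¹ (inv_ne_zero (sc_pos σ t).ne') F),
    Lp.coeFn_smul (((sc σ t) ^ 4 : ℝ) : ℂ) (gz σ μ F t)] with p h1 h2 h3
  rw [h3, Pi.smul_apply, h1, h2, cd_real, cft_ofReal, mft_sc (sc_pos σ t).ne', smul_eq_mul]

lemma gz_half (temp : μ.HasTemperateGrowth) (cone : ∀ᵐ p ∂μ, p ∈ fwdCone) (F : 𝓢(Mink, ℂ))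
    (hF : P352.IsTest W F) (t : ℝ) :
    (((sc σ t) ^ 4 : ℝ) : ℂ) • gz σ μ F ((t : ℂ) - I / 2) =
      toL temp (scaleS (sc σ t)⁻¹ (inv_ne_zero (sc_pos σ t).ne')
        (scaleS (-1)⁻¹ (inv_ne_zero (by norm_num)) F)) := by
  apply Lp.ext
  have hz : ((t : ℂ) - I / 2) ∈ T.St := by constructor <;> simp
  filter_upwards [coe_gz hσ hW temp cone F hF hz,
    coeFn_toL temp (scaleS (sc σ t)⁻¹ (inv_ne_zero (sc_pos σ t).ne')
        (scaleS (-1)⁻¹ (inv_ne_zero (by norm_num)) F)),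
    Lp.coeFn_smul (((sc σ t) ^ 4 : ℝ) : ℂ) (gz σ μ F ((t : ℂ) - I / 2))] with p h1 h2 h3
  rw [h3, Pi.smul_apply, h1, h2, cd_half hσ, cft_ofReal, mft_sc (sc_pos σ t).ne',
    mft_sc (by norm_num : (-1 : ℝ) ≠ 0), smul_eq_mul, smul_smul]
  norm_num

/-- norm continuity on the closed strip -/
lemma cont_gz (temp : μ.HasTemperateGrowth) (cone : ∀ᵐ p ∂μ, p ∈ fwdCone) (F : 𝓢(Mink, ℂ))
    (hF : P352.IsTest W F) : ContinuousOn (gz σ μ F) T.St := by
  intro z₀ hz₀
  obtain ⟨N, hN⟩ := exists_wt_memLp temp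
  obtain ⟨C, r, hC, hr, h⟩ := decay_cd hσ hW F hF N
  have hsq : Integrable (fun p => (wt N p) ^ 2) μ := by
    have := hN.integrable_sq
    exact this
  have hnorm : ∀ z ∈ T.St, ‖gz σ μ F z - gz σ μ F z₀‖ ^ 2 =
      ∫ p, ‖cft F (cd σ z p) - cft F (cd σ z₀ p)‖ ^ 2 ∂μ := by
    intro z hz
    have e1 : inner ℂ (gz σ μ F z - gz σ μ F z₀) (gz σ μ F z - gz σ μ F z₀) =
        ∫ p, ((‖cft F (cd σ z p) - cft F (cd σ z₀ p)‖ ^ 2 : ℝ) : ℂ) ∂μ := by
      rw [L2.inner_def]
      apply integral_congr_ae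
      filter_upwards [coe_gz hσ hW temp cone F hF hz, coe_gz hσ hW temp cone F hF hz₀,
        Lp.coeFn_sub (gz σ μ F z) (gz σ μ F z₀)] with p h1 h2 h3
      rw [h3, Pi.sub_apply, h1, h2, inner_self_eq_norm_sq_to_K]
      norm_cast
    rw [inner_self_eq_norm_sq_to_K, integral_complex_ofReal] at e1
    apply Complex.ofReal_injective
    rw [← e1, ofReal_pow]
    rfl
  have hlim : Tendsto (fun z => ∫ p, ‖cft F (cd σ z p) - cft F (cd σ z₀ p)‖ ^ 2 ∂μ)
      (𝓝[T.St] z₀) (𝓝 (∫ p, ‖cft F (cd σ z₀ p) - cft F (cd σ z₀ p)‖ ^ 2 ∂μ)) := by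
    refine tendsto_integral_filter_of_dominated_convergence
      (fun p => (2 * (C * Real.exp (r * (|z₀.re| + 1)))) ^ 2 * (wt N p) ^ 2) ?_ ?_
      (hsq.const_mul _) ?_
    · refine Eventually.of_forall fun z => ?_
      exact (((continuous_cft_cd_right σ F hF.1 z).sub
        (continuous_cft_cd_right σ F hF.1 z₀)).norm.pow 2).aestronglyMeasurable
    · have hmem : {z : ℂ | |z.re| < |z₀.re| + 1} ∈ 𝓝 z₀ := by
        apply IsOpen.mem_nhds
        · exact isOpen_lt (by fun_prop) continuous_const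
        · show |z₀.re| < |z₀.re| + 1
          linarith
      filter_upwards [mem_nhdsWithin_of_mem_nhds hmem, self_mem_nhdsWithin] with z hz1 hz2
      filter_upwards [cone] with p hp
      have hb1 : ∀ w ∈ T.St, |w.re| ≤ |z₀.re| + 1 →
          ‖cft F (cd σ w p)‖ ≤ C * Real.exp (r * (|z₀.re| + 1)) * wt N p := by
        intro w hw hw'
        refine (h p hp w hw).trans ?_
        have := wt_nonneg N p
        gcongr
      have e1 := hb1 z hz2 (le_of_lt hz1)
      have e2 := hb1 z₀ hz₀ (by linarith)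
      rw [Real.norm_of_nonneg (by positivity), ← mul_pow]
      apply pow_le_pow_left₀ (norm_nonneg _)
      calc _ ≤ ‖cft F (cd σ z p)‖ + ‖cft F (cd σ z₀ p)‖ := norm_sub_le _ _
        _ ≤ _ := by linarith
    · refine Eventually.of_forall fun p => ?_
      have hc : Continuous fun z => ‖cft F (cd σ z p) - cft F (cd σ z₀ p)‖ ^ 2 :=
        (((differentiable_cft_cd σ F hF.1 p).continuous.sub continuous_const).norm.pow 2)
      exact hc.continuousWithinAt
  have h0 : Tendsto (fun z => ‖gz σ μ F z - gz σ μ F z₀‖ ^ 2) (𝓝[T.St] z₀) (𝓝 0) := by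
    have e : (∫ p, ‖cft F (cd σ z₀ p) - cft F (cd σ z₀ p)‖ ^ 2 ∂μ) = 0 := by simp
    rw [e] at hlim
    refine hlim.congr' ?_
    filter_upwards [self_mem_nhdsWithin] with z hz
    rw [hnorm z hz]
  have h1 : Tendsto (fun z => ‖gz σ μ F z - gz σ μ F z₀‖) (𝓝[T.St] z₀) (𝓝 0) := by
    have := h0.sqrt
    simpa using this
  exact tendsto_iff_norm_sub_tendsto_zero.2 h1

end mom

/-! ### one-field vectors -/

section vec

variable {D : Type*} [NormedAddCommGroup D] [InnerProductSpace ℂ D] {Q : Theory D}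
  {d : ℝ} {B : Fld D}

lemma fl_sc (F : 𝓢(Mink, ℂ)) :
    fl (scaleS (-1)⁻¹ (inv_ne_zero (by norm_num)) F) = L.rf (fl F) := by
  funext x
  rw [fl_apply, scaleS_apply, L.rf, fl_apply]
  congr 1
  ext n
  norm_num

lemma U_fl (hB : L.Fz Q d B) {s : ℝ} (hs : 0 < s) (F : 𝓢(Mink, ℂ)) :
    Q.U s GF.one 0 (B (fl F) Q.vac) =
      ((s ^ (d - 4) : ℝ) : ℂ) • B (fl (scaleS s⁻¹ (inv_ne_zero hs.ne') F)) Q.vac := by
  have h := hB.cov s (fl (scaleS s⁻¹ (inv_ne_zero hs.ne') F)) Q.vac hs (isTest_fl _)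
  rw [Q.U_vac s GF.one 0 hs P352.isLor_one] at h
  have e : (fun x => fl (scaleS s⁻¹ (inv_ne_zero hs.ne') F) (sim s GF.one 0 x)) = fl F := by
    funext x
    rw [fl_apply, fl_apply, scaleS_apply]
    congr 1
    ext n
    simp only [sim, GF.one, bas, PiLp.smul_apply, smul_eq_mul, Pi.zero_apply, zero_add, mul_ite,
      mul_one, mul_zero, Finset.sum_ite_eq, Finset.mem_univ, if_true]
    field_simp
  rw [e] at h
  rw [h, smul_smul, ← ofReal_mul, ← Real.rpow_add hs]
  rw [show d - 4 + (4 - d) = 0 by ring, Real.rpow_zero, ofReal_one, one_smul]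

include hσ in
theorem od (hB : L.Fz Q d B) {f : Fn} {O : Set V}
    (hO : ∀ x : Mink, x.ofLp ∈ O → ∀ p ∈ fwdCone, 0 ≤ σ * P352.mdot p x) (hf : In O f) :
    ∃ G : ℂ → Completion D, DifferentiableOn ℂ G T.SmI ∧ ContinuousOn G T.Sm ∧
      (∃ C, ∀ z ∈ T.Sm, ‖G z‖ ≤ C) ∧ ∀ t : ℝ, G t = (Q.U (sc σ t) GF.one 0 (B f Q.vac) : D) ∧
        G (t - Complex.I / 2) =
          (Q.U (sc σ t) GF.one 0 (exp (σ * (I * Real.pi * d)) • B (L.rf f) Q.vac) : D) := by
  obtain ⟨F, rfl⟩ := exists_fl hf.1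
  have hF := O649.isTest_of_in hf
  obtain ⟨μ, K⟩ := exists_cvd (Q := Q) (kf hB.fld) (kf_cov hB.fld)
  set G : ℂ → Completion D := fun z => exp (((-(2 * Real.pi * (σ * d)) : ℝ) : ℂ) * z) •
    K.J (gz σ μ F z) with hG
  have hsd : ∀ t : ℝ, exp (((-(2 * Real.pi * (σ * d)) : ℝ) : ℂ) * t) =
      (((sc σ t) ^ d : ℝ) : ℂ) := by
    intro t
    unfold sc
    rw [← Real.exp_mul, ofReal_exp]
    congr 1
    push_cast
    ring
  have hs4 : ∀ t : ℝ, (((sc σ t) ^ d : ℝ) : ℂ) =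
      (((sc σ t) ^ (d - 4) : ℝ) : ℂ) * (((sc σ t) ^ 4 : ℝ) : ℂ) := by
    intro t
    rw [← ofReal_mul, ← Real.rpow_natCast, ← Real.rpow_add (sc_pos σ t)]
    norm_num
  have hval : ∀ t : ℝ, G t = (Q.U (sc σ t) GF.one 0 (B (fl F) Q.vac) : D) := by
    intro t
    rw [U_fl hB (sc_pos σ t), hG]
    show exp (((-(2 * Real.pi * (σ * d)) : ℝ) : ℂ) * t) • K.J (gz σ μ F t) = _
    rw [hsd, hs4, mul_smul, ← map_smul, gz_real hσ hO K.temp K.cone F hF, K.J_toL,
      Completion.coe_smul, kf_apply]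
  have hval' : ∀ t : ℝ, G (t - Complex.I / 2) =
      (Q.U (sc σ t) GF.one 0 (exp (σ * (I * Real.pi * d)) • B (L.rf (fl F)) Q.vac) : D) := by
    intro t
    rw [U_smul (sc_pos σ t) P352.isLor_one, ← fl_sc, U_fl hB (sc_pos σ t), hG]
    show exp (((-(2 * Real.pi * (σ * d)) : ℝ) : ℂ) * ((t : ℂ) - I / 2)) •
      K.J (gz σ μ F ((t : ℂ) - I / 2)) = _
    have e : exp (((-(2 * Real.pi * (σ * d)) : ℝ) : ℂ) * ((t : ℂ) - I / 2)) =
        exp (σ * (I * Real.pi * d)) * exp (((-(2 * Real.pi * (σ * d)) : ℝ) : ℂ) * t) := by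
      rw [← Complex.exp_add]
      congr 1
      push_cast
      ring
    rw [e, hsd, hs4, mul_smul, mul_smul, ← map_smul, gz_half hσ hO K.temp K.cone F hF, K.J_toL,
      Completion.coe_smul, Completion.coe_smul, kf_apply]
  have hE : Nice fun z : ℂ => exp (((-(2 * Real.pi * (σ * d)) : ℝ) : ℂ) * z) := Nice.exp _
  have hc : ContinuousOn G T.Sm := by
    rw [hG]
    exact hE.cont.smul (K.J.continuous.comp_continuousOn (cont_gz hσ hO K.temp K.cone F hF))
  have hn : ∀ y : Completion D, Nice fun z => inner ℂ y (G z) := by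
    intro y
    have e : (fun z => inner ℂ y (G z)) = fun z =>
        exp (((-(2 * Real.pi * (σ * d)) : ℝ) : ℂ) * z) *
        inner ℂ (ContinuousLinearMap.adjoint K.J y) (gz σ μ F z) := by
      funext z
      rw [hG]
      simp only [inner_smul_right, ContinuousLinearMap.adjoint_inner_left]
    rw [e]
    exact hE.mul (nice_gz hσ hO K.temp K.cone F hF _)
  set C : ℝ := max ‖B (fl F) Q.vac‖ ‖exp (σ * (I * Real.pi * d)) • B (L.rf (fl F)) Q.vac‖ with hC
  have hU : ∀ (t : ℝ) (v : D), ‖((Q.U (sc σ t) GF.one 0 v : D) : Completion D)‖ = ‖v‖ := by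
    intro t v
    rw [Completion.norm_coe]
    have h := Q.U_inner (sc σ t) GF.one 0 v v (sc_pos σ t) P352.isLor_one
    rw [inner_self_eq_norm_sq_to_K, inner_self_eq_norm_sq_to_K] at h
    have h2 : ‖Q.U (sc σ t) GF.one 0 v‖ ^ 2 = ‖v‖ ^ 2 := by exact_mod_cast h
    exact (pow_left_inj₀ (norm_nonneg _) (norm_nonneg _) (by norm_num)).1 h2
  have hb' : ∀ z ∈ T.Sm, ‖G z‖ ≤ C := by
    intro z hz
    have h1 : ‖inner ℂ (G z) (G z)‖ ≤ ‖G z‖ * C := by
      refine (hn (G z)).pl ?_ ?_ hz.1 hz.2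
      · intro t
        refine (norm_inner_le_norm _ _).trans ?_
        rw [hval, hU]
        gcongr
        exact le_max_left _ _
      · intro t
        refine (norm_inner_le_norm _ _).trans ?_
        rw [hval', hU]
        gcongr
        exact le_max_right _ _
    have h2 : ‖inner ℂ (G z) (G z)‖ = ‖G z‖ * ‖G z‖ := by
      rw [inner_self_eq_norm_sq_to_K, norm_pow, norm_algebraMap', norm_norm, pow_two]
    rw [h2] at h1
    by_cases h3 : ‖G z‖ = 0
    · rw [h3]
      exact (norm_nonneg _).trans (le_max_left _ _)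
    · exact le_of_mul_le_mul_left h1 (lt_of_le_of_ne (norm_nonneg _) (Ne.symm h3))
  have hopen : IsOpen T.SmI := (isOpen_lt continuous_const Complex.continuous_im).inter
    (isOpen_lt Complex.continuous_im continuous_const)
  refine ⟨G, ?_, hc, ⟨C, hb'⟩, fun t => ⟨hval t, hval' t⟩⟩
  exact T.nrm_diff hopen (hc.mono fun z hz => ⟨hz.1.le, hz.2.le⟩) fun y => (hn y).diff

end vec

/-- timelike vectors and the forward cone -/
lemma mdot_cone {x : Mink} (h0 : 0 ≤ x 0) (hx : 0 ≤ P352.mdot x x) {p : Mink}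
    (hp : p ∈ fwdCone) : 0 ≤ P352.mdot p x := by
  have h2 := hp.2
  have h4 := hp.1
  simp only [P352.mdot] at h2 hx ⊢
  have e1 : (x 1 * p 1 + x 2 * p 2 + x 3 * p 3) ^ 2 ≤
      (x 1 ^ 2 + x 2 ^ 2 + x 3 ^ 2) * (p 1 ^ 2 + p 2 ^ 2 + p 3 ^ 2) := by
    nlinarith only [sq_nonneg (x 1 * p 2 - x 2 * p 1), sq_nonneg (x 1 * p 3 - x 3 * p 1),
      sq_nonneg (x 2 * p 3 - x 3 * p 2)]
  have e2 : (x 1 ^ 2 + x 2 ^ 2 + x 3 ^ 2) * (p 1 ^ 2 + p 2 ^ 2 + p 3 ^ 2) ≤ (x 0 * p 0) ^ 2 := by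
    have f1 : x 1 ^ 2 + x 2 ^ 2 + x 3 ^ 2 ≤ x 0 ^ 2 := by linarith only [hx]
    have f2 : p 1 ^ 2 + p 2 ^ 2 + p 3 ^ 2 ≤ p 0 ^ 2 := by linarith only [h2]
    rw [mul_pow]
    exact mul_le_mul f1 f2 (by positivity) (sq_nonneg _)
  have e3 := abs_le_of_sq_le_sq' (e1.trans e2) (mul_nonneg h0 h4)
  linarith only [e3.2]

end Vale.Agent.P352.BW.H234O

namespace Vale.Agent.P352.BW.H234O

open GF (Ix V Fn Fld Theory bas sim)
open H246 H496 H746 H755 H15
open L (Bk)
open UniformSpace (Completion)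

/-- **Block O** for the dilations, real scaling dimension, both light cones. -/
theorem oL {D : Type*} [NormedAddCommGroup D] [InnerProductSpace ℂ D] {Q : Theory D}
    {A : (V → V) → D → D} : L.OStmt Q A := by
  intro R d B f hB
  constructor
  · intro hf
    obtain ⟨G, h1, h2, h3, h4⟩ := od (σ := 1) (Or.inl rfl) hB (f := f) (O := Fc)
      (fun x hx p hp => by
        rw [one_mul]
        refine mdot_cone hx.2.le ?_ hp
        rw [mdot_eq]
        exact hx.1.le) hf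
    refine ⟨G, h1, h2, h3, fun t => ?_⟩
    have h := h4 t
    have e : H234O.sc 1 t = Real.exp (-(2 * Real.pi * t)) := by unfold H234O.sc; rw [one_mul]
    rw [e, Complex.ofReal_one, one_mul] at h
    exact h
  · intro hf
    obtain ⟨G, h1, h2, h3, h4⟩ := od (σ := -1) (Or.inr rfl) hB (f := f) (O := Bk)
      (fun x hx p hp => by
        have h5 : 0 ≤ P352.mdot p (-x) := by
          refine mdot_cone (x := -x) ?_ ?_ hp
          · have := hx.2
            simp only [PiLp.neg_apply]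
            exact neg_nonneg.2 this.le
          · have : P352.mdot (-x) (-x) = P352.mdot x x := by
              simp only [P352.mdot, PiLp.neg_apply]
              ring
            rw [this, mdot_eq]
            exact hx.1.le
        have h6 : P352.mdot p (-x) = -1 * P352.mdot p x := by
          simp only [P352.mdot, PiLp.neg_apply]
          ring
        rw [h6] at h5
        exact h5) hf
    refine ⟨G, h1, h2, h3, fun t => ?_⟩
    have h := h4 t
    have e : H234O.sc (-1) t = Real.exp (-(2 * Real.pi * -t)) := by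
      unfold H234O.sc; rw [neg_one_mul]
    rw [e, Complex.ofReal_neg, Complex.ofReal_one, neg_one_mul] at h
    exact h

end Vale.Agent.P352.BW.H234O

end
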